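import Mathlib

/-!
The working model of a polarised compact complex manifold: a finite atlas, line bundles in a
gauge, the canonical bundle with a smooth measure, and the volume exponents `Good`.
-/

open MeasureTheory Set Filter Topology
open scoped ContDiff ComplexConjugate

noncomputable section

namespace Vale.Agent.P271

abbrev Cn (n : ℕ) := Fin n → ℂ

section Local
variable {n : ℕ}

/-- The Wirtinger derivative `∑ ξ j ∂_j f`. -/
def dz (ξ : Cn n) (f : Cn n → ℂ) (z : Cn n) : ℂ :=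
  (fderiv ℝ f z ξ - Complex.I * fderiv ℝ f z (Complex.I • ξ)) / 2

/-- The Wirtinger derivative `∑ conj (ξ j) ∂_{\bar j} f`. -/
def dzb (ξ : Cn n) (f : Cn n → ℂ) (z : Cn n) : ℂ :=
  (fderiv ℝ f z ξ + Complex.I * fderiv ℝ f z (Complex.I • ξ)) / 2

/-- The sesquilinear Levi form `∑ φ_{j \bar k} ξ j conj (η k)`. -/
def lev (φ : Cn n → ℝ) (z ξ η : Cn n) : ℂ := dz ξ (dzb η fun w => (φ w : ℂ)) z

/-- The Levi form on the diagonal. -/
def Lev (φ : Cn n → ℝ) (z ξ : Cn n) : ℝ := (lev φ z ξ ξ).re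

end Local

/-- A finite holomorphic atlas. -/
structure Atl (n : ℕ) (X : Type) [TopologicalSpace X] where
  ι : Type
  [fin : Fintype ι]
  e : ι → OpenPartialHomeomorph X (Cn n)
  cover : ∀ p, ∃ a, p ∈ (e a).source
  hol : ∀ a b, AnalyticOnNhd ℂ (fun z => e b ((e a).symm z))
    ((e a).target ∩ (e a).symm ⁻¹' (e b).source)

attribute [instance] Atl.fin

variable {n : ℕ} {X : Type} [TopologicalSpace X]

namespace Atl
variable (A : Atl n X)

/-- The expression of a function in the chart `a`. -/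
def loc {F : Type} (a : A.ι) (f : X → F) : Cn n → F := fun z => f ((A.e a).symm z)

/-- The overlap of two charts, seen in the first one. -/
def ov (a b : A.ι) : Set (Cn n) := (A.e a).target ∩ (A.e a).symm ⁻¹' (A.e b).source

/-- The transition map. -/
def tr (a b : A.ι) : Cn n → Cn n := fun z => A.e b ((A.e a).symm z)

/-- Smooth in the chart `a`. -/
def SmOn {F : Type} [NormedAddCommGroup F] [NormedSpace ℝ F] (a : A.ι) (f : X → F) : Prop :=
  ContDiffOn ℝ ∞ (A.loc a f) (A.e a).target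

/-- Smooth on `X`. -/
def Sm {F : Type} [NormedAddCommGroup F] [NormedSpace ℝ F] (f : X → F) : Prop := ∀ a, A.SmOn a f

/-- Holomorphic in the chart `a`. -/
def HolOn (a : A.ι) (f : X → ℂ) : Prop := AnalyticOnNhd ℂ (A.loc a f) (A.e a).target

/-- A line bundle in a gauge: a section `s : X → ℂ` has local expression `u a * s`. -/
structure IsGauge (u : A.ι → X → ℂ) : Prop where
  ne : ∀ a, ∀ p ∈ (A.e a).source, u a p ≠ 0
  hol : ∀ a b, AnalyticOnNhd ℂ (A.loc a fun p => u a p / u b p) (A.ov a b)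
  sm : ∀ a, A.SmOn a fun p => ‖u a p‖ ^ 2

/-- Smooth sections. -/
def Sec (u : A.ι → X → ℂ) : Submodule ℂ (X → ℂ) where
  carrier := {s | ∀ a, A.SmOn a fun p => u a p * s p}
  add_mem' := by
    intro s t hs ht a
    have h : ContDiffOn ℝ ∞ _ _ := (hs a).add (ht a)
    refine h.congr fun z _ => ?_
    simp [loc, mul_add]
  zero_mem' := by
    intro a
    refine (contDiffOn_const (c := (0 : ℂ))).congr fun z _ => ?_
    simp [loc]
  smul_mem' := by
    intro c s hs a
    have h : ContDiffOn ℝ ∞ _ _ := (contDiffOn_const (c := c)).mul (hs a)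
    refine h.congr fun z _ => ?_
    simp [loc]; ring

/-- Holomorphic sections. -/
def H0 (u : A.ι → X → ℂ) : Submodule ℂ (X → ℂ) where
  carrier := {s | ∀ a, A.HolOn a fun p => u a p * s p}
  add_mem' := by
    intro s t hs ht a
    have h := (hs a).add (ht a)
    have e : A.loc a (fun p => u a p * (s + t) p) =
        A.loc a (fun p => u a p * s p) + A.loc a (fun p => u a p * t p) := by
      funext z; simp [loc, mul_add]
    unfold HolOn; rw [e]; exact h
  zero_mem' := by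
    intro a
    have e : A.loc a (fun p => u a p * (0 : X → ℂ) p) = fun _ => 0 := by funext z; simp [loc]
    unfold HolOn; rw [e]; exact analyticOnNhd_const
  smul_mem' := by
    intro c s hs a
    have h := (analyticOnNhd_const (v := c)).mul (hs a)
    have e : A.loc a (fun p => u a p * (c • s) p) =
        fun z => c * A.loc a (fun p => u a p * s p) z := by
      funext z; simp [loc]; ring
    unfold HolOn; rw [e]; exact h

/-- The local weight of the metric `ψ` on the bundle `u`. -/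
def wt (u : A.ι → X → ℂ) (ψ : X → ℝ) (a : A.ι) : Cn n → ℝ :=
  A.loc a fun p => ψ p + Real.log (‖u a p‖ ^ 2)

/-- A smooth metric with positive definite curvature. -/
def Pos (u : A.ι → X → ℂ) (ψ : X → ℝ) : Prop :=
  A.Sm ψ ∧ ∀ a, ∀ z ∈ (A.e a).target, ∀ ξ, ξ ≠ 0 → 0 < Lev (A.wt u ψ a) z ξ

/-- The sections `s i` have no common zero and give an immersion to projective space. -/
structure Imm (u : A.ι → X → ℂ) {ι : Type} (s : ι → X → ℂ) : Prop where
  mem : ∀ i, s i ∈ A.H0 u
  bpf : ∀ p, ∃ i, s i p ≠ 0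
  imm : ∀ a, ∀ z ∈ (A.e a).target, ∀ ξ : Cn n, ξ ≠ 0 → ∃ i j,
    A.loc a (fun p => u a p * s i p) z * fderiv ℂ (A.loc a fun p => u a p * s j p) z ξ ≠
      A.loc a (fun p => u a p * s j p) z * fderiv ℂ (A.loc a fun p => u a p * s i p) z ξ

end Atl

/-- An atlas with a partition of unity, the canonical bundle in a gauge `k`, and the measure with
density `|k a|²` in the chart `a`. -/
structure Model (n : ℕ) (X : Type) [TopologicalSpace X] [MeasurableSpace X] extends Atl n X where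
  ρ : ι → X → ℝ
  ρ_sm : ∀ a, toAtl.Sm (ρ a)
  ρ_nonneg : ∀ a p, 0 ≤ ρ a p
  ρ_supp : ∀ a, tsupport (ρ a) ⊆ (e a).source
  ρ_sum : ∀ p, ∑ a, ρ a p = 1
  k : ι → X → ℂ
  k_gauge : toAtl.IsGauge k
  k_tr : ∀ a b, ∀ z ∈ toAtl.ov a b,
    k a ((e a).symm z) = (fderiv ℂ (toAtl.tr a b) z).det * k b ((e a).symm z)
  μ : Measure X
  [μ_fin : IsFiniteMeasure μ]
  μ_chart : ∀ a, μ.restrict (e a).source = Measure.map (e a).symm
    ((volume.restrict (e a).target).withDensity fun z => ENNReal.ofReal (‖k a ((e a).symm z)‖ ^ 2))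

attribute [instance] Model.μ_fin

/-- The squared weighted norm of a section. -/
def Model.N2 [MeasurableSpace X] (M : Model n X) (ψ : X → ℝ) (s : X → ℂ) : ℝ :=
  ∫ p, ‖s p‖ ^ 2 * Real.exp (-ψ p) ∂M.μ

/-- A polarisation: the bundle `L` in the gauge `u` and an embedding by sections of `k0 L`,
normalised to have total norm one. -/
structure Pol (A : Atl n X) where
  u : A.ι → X → ℂ
  gauge : A.IsGauge u
  k0 : ℕ
  k0_pos : 0 < k0
  N : ℕ
  s : Fin N → X → ℂ
  imm : A.Imm (u ^ k0) s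
  norm : ∀ p, ∑ i, ‖s i p‖ ^ 2 = 1
  sep : ∀ p q, p ≠ q → ∃ i j, s i p * s j q ≠ s j p * s i q

/-- The distance to `x` measured by the embedding; `s i0` does not vanish at `x`. -/
def Pol.r {A : Atl n X} (P : Pol A) (x : X) (i0 : Fin P.N) (p : X) : ℝ :=
  Real.sqrt (∑ i, ‖P.s i p - P.s i x / P.s i0 x * P.s i0 p‖ ^ 2)

section Good
variable {Y : Type} (ν : OuterMeasure Y) (r : Y → ℝ)

/-- The functions `f i` are of size `V i ^ T` on sets of volume `exp (-b T)` near `r = 0`. -/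
def Good {I : Type} (f : I → Y → ℂ) (V : I → ℝ) (b : ℝ) : Prop :=
  ∀ δ > (0 : ℝ), ∃ T : ℝ, 1 / δ ≤ T ∧ ENNReal.ofReal (Real.exp (-(b + δ) * T)) ≤
    ν {p | r p < δ ∧ ∀ i, ‖f i p‖ ^ 2 ≤ (V i + δ) ^ T}

/-- The same with functions that move with `δ`. -/
def MGood {I Λ : Type} [Fintype Λ] (f : I → Y → ℂ) (g : Λ → Y → ℂ) (V : I → ℝ) (b : ℝ) : Prop :=
  ∀ δ > (0 : ℝ), ∃ T : ℝ, 1 / δ ≤ T ∧ ∃ c : I → Λ → ℂ, (∀ i l, ‖c i l‖ ≤ δ) ∧
    ENNReal.ofReal (Real.exp (-(b + δ) * T)) ≤
      ν {p | r p < δ ∧ ∀ i, ‖f i p + ∑ l, c i l * g l p‖ ^ 2 ≤ (V i + δ) ^ T}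

end Good

end Vale.Agent.P271
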