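import Vale.Agent.P271.BrA

/-! The canonical bundle in a gauge and the smooth measure.

Hints. Let `J a b p = (fderiv ℂ (tr a b) (e a p)).det`; by the chain rule `J a b * J b c = J a c` on
triple overlaps, `J a a = 1`, and `loc a (J a b)` is analytic on `ov a b` (the determinant is a
polynomial in the matrix entries: `LinearMap.det_toLin`, `Matrix.det_apply`,
`AnalyticOnNhd.fderiv`). Let `m a p = ∑ b, ρ b p * ‖J a b p‖ ^ 2`: it is smooth and positive on the
source of `a` (near a point outside `tsupport (ρ b)` the term vanishes), and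
`m a = ‖J a c‖ ^ 2 * m c`. Choose a chart `c p` at each point and put
`k a p = J a (c p) p * √(m (c p) p)`; then `‖k a p‖ ^ 2 = m a p` and `k a / k b = J a b`. Put
`μ = ∑ b, map (e b).symm ((volume.restrict target).withDensity (ofReal ∘ ρ b ∘ symm))`. It is finite
(continuous density with compact support). The chart formula is the change of variables
`lintegral_image_eq_lintegral_abs_det_fderiv_mul` for `tr a b` on `ov a b`, with
`|det (restrictScalars ℝ f)| = ‖det f‖ ^ 2` (`LinearMap.det_restrictScalars`,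
`Algebra.norm_complex_apply`). -/

open MeasureTheory Set Filter Topology
open scoped ContDiff

noncomputable section

namespace Vale.Agent.P271

variable {n : ℕ} {X : Type} [TopologicalSpace X] [T2Space X] [CompactSpace X]

theorem analyticOnNhd_det_fderiv {f : Cn n → Cn n} {U : Set (Cn n)} (hf : AnalyticOnNhd ℂ f U) :
    AnalyticOnNhd ℂ (fun z => (fderiv ℂ f z).det) U := by
  have e : (fun z => (fderiv ℂ f z).det) = fun z => ∑ σ : Equiv.Perm (Fin n),
      ((Equiv.Perm.sign σ : ℤ) : ℂ) * ∏ i, fderiv ℂ f z (Pi.single i 1) (σ i) := by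
    funext z
    unfold ContinuousLinearMap.det
    rw [← LinearMap.det_toMatrix', Matrix.det_apply']
    refine Finset.sum_congr rfl fun σ _ => ?_
    simp only [LinearMap.toMatrix'_apply, ContinuousLinearMap.coe_coe]
  rw [e]
  refine Finset.analyticOnNhd_fun_sum _ fun σ _ => analyticOnNhd_const.mul ?_
  refine Finset.analyticOnNhd_fun_prod _ fun i _ z hz => ?_
  exact (((ContinuousLinearMap.proj (R := ℂ) (φ := fun _ : Fin n => ℂ) (σ i)).comp
    (ContinuousLinearMap.apply ℂ (Cn n) (Pi.single i 1))).analyticAt _).comp (hf.fderiv z hz)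

theorem det_restrictScalars_eq (f : Cn n →L[ℂ] Cn n) :
    (f.restrictScalars ℝ).det = ‖f.det‖ ^ 2 := by
  have h := LinearMap.det_restrictScalars (R := ℝ) (f := (f : Cn n →ₗ[ℂ] Cn n))
  rw [Algebra.norm_complex_apply, Complex.normSq_eq_norm_sq] at h
  exact h

omit [T2Space X] [CompactSpace X] in
/-- The cocycle identity for the Jacobian determinants. -/
theorem BrK_cocycle (A : Atl n X) (a b c : A.ι) {z : Cn n} (hz : z ∈ A.ov a b)
    (hc : (A.e a).symm z ∈ (A.e c).source) :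
    (fderiv ℂ (A.tr a c) z).det =
      (fderiv ℂ (A.tr a b) z).det * (fderiv ℂ (A.tr b c) (A.tr a b z)).det := by
  have hz' : A.tr a b z ∈ A.ov b c := by
    refine ⟨(A.mapsTo_tr a b hz).1, ?_⟩
    change (A.e b).symm (A.e b ((A.e a).symm z)) ∈ (A.e c).source
    rwa [(A.e b).left_inv hz.2]
  have h1 := (A.analyticOnNhd_tr a b z hz).differentiableAt
  have h2 := (A.analyticOnNhd_tr b c _ hz').differentiableAt
  have h3 : A.tr a c =ᶠ[𝓝 z] A.tr b c ∘ A.tr a b := A.api_loc_ev a b (A.e c) hz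
  rw [h3.fderiv_eq, fderiv_comp z h2 h1, mul_comm]
  unfold ContinuousLinearMap.det
  rw [← LinearMap.det_comp]
  rfl

/-- One term of the density. -/
def BrKt (A : Atl n X) (ρ : A.ι → X → ℝ) (a b : A.ι) (z : Cn n) : ℝ :=
  ρ b ((A.e a).symm z) * ‖(fderiv ℂ (A.tr a b) z).det‖ ^ 2

omit [T2Space X] [CompactSpace X] in
theorem BrK_zero {A : Atl n X} {ρ : A.ι → X → ℝ} (h3 : ∀ a, tsupport (ρ a) ⊆ (A.e a).source)
    {b : A.ι} {p : X} (hp : p ∉ (A.e b).source) : ρ b p = 0 :=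
  image_eq_zero_of_notMem_tsupport fun h => hp (h3 b h)

omit [T2Space X] [CompactSpace X] in
theorem BrK_sm {A : Atl n X} {ρ : A.ι → X → ℝ} (h1 : ∀ a, A.Sm (ρ a))
    (h3 : ∀ a, tsupport (ρ a) ⊆ (A.e a).source) (a b : A.ι) :
    ContDiffOn ℝ ∞ (BrKt A ρ a b) (A.e a).target := by
  intro z hz
  refine ContDiffAt.contDiffWithinAt ?_
  by_cases hb : (A.e a).symm z ∈ tsupport (ρ b)
  · have h4 : ContDiffAt ℝ ∞ (A.loc a (ρ b)) z :=
      (h1 b a).contDiffAt ((A.e a).open_target.mem_nhds hz)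
    have h5 : ContDiffAt ℝ ∞ (fun w => (fderiv ℂ (A.tr a b) w).det) z :=
      ((analyticOnNhd_det_fderiv (A.analyticOnNhd_tr a b) z ⟨hz, h3 b hb⟩).contDiffAt
        (n := ∞)).restrict_scalars ℝ
    exact h4.mul (h5.norm_sq ℂ)
  · have h4 : ∀ᶠ w in 𝓝 z, (A.e a).symm w ∉ tsupport (ρ b) :=
      ((A.e a).continuousAt_symm hz).eventually ((isClosed_tsupport _).isOpen_compl.mem_nhds hb)
    refine (contDiffAt_const (c := (0 : ℝ))).congr_of_eventuallyEq ?_
    filter_upwards [h4] with w hw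
    unfold BrKt
    rw [image_eq_zero_of_notMem_tsupport hw, zero_mul]

omit [T2Space X] [CompactSpace X] in
theorem BrK_tr {A : Atl n X} {ρ : A.ι → X → ℝ} (h3 : ∀ a, tsupport (ρ a) ⊆ (A.e a).source)
    (a b : A.ι) {z : Cn n} (hz : z ∈ A.ov a b) :
    ∑ c, BrKt A ρ a c z = ‖(fderiv ℂ (A.tr a b) z).det‖ ^ 2 * ∑ c, BrKt A ρ b c (A.tr a b z) := by
  rw [Finset.mul_sum]
  refine Finset.sum_congr rfl fun c _ => ?_
  have h4 : (A.e b).symm (A.tr a b z) = (A.e a).symm z := (A.e b).left_inv hz.2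
  unfold BrKt
  rw [h4]
  by_cases hc : (A.e a).symm z ∈ (A.e c).source
  · rw [BrK_cocycle A a b c hz hc, norm_mul]
    ring
  · rw [BrK_zero h3 hc]
    ring

omit [T2Space X] [CompactSpace X] in
theorem BrK_nonneg {A : Atl n X} {ρ : A.ι → X → ℝ} (h2 : ∀ a p, 0 ≤ ρ a p) (a b : A.ι)
    (z : Cn n) : 0 ≤ BrKt A ρ a b z :=
  mul_nonneg (h2 _ _) (sq_nonneg _)

omit [T2Space X] [CompactSpace X] in
theorem BrK_pos {A : Atl n X} {ρ : A.ι → X → ℝ} (h2 : ∀ a p, 0 ≤ ρ a p)
    (h3 : ∀ a, tsupport (ρ a) ⊆ (A.e a).source) (h4 : ∀ p, ∑ a, ρ a p = 1) (a : A.ι) {z : Cn n}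
    (hz : z ∈ (A.e a).target) : 0 < ∑ c, BrKt A ρ a c z := by
  have h5 : ∃ b, ρ b ((A.e a).symm z) ≠ 0 := by
    by_contra h
    push Not at h
    have h6 := h4 ((A.e a).symm z)
    rw [Finset.sum_eq_zero fun b _ => h b] at h6
    exact zero_ne_one h6
  obtain ⟨b, hb⟩ := h5
  have h6 : (A.e a).symm z ∈ (A.e b).source := by
    by_contra h
    exact hb (BrK_zero h3 h)
  refine Finset.sum_pos' (fun c _ => BrK_nonneg h2 a c z) ⟨b, Finset.mem_univ b, ?_⟩
  exact mul_pos ((h2 _ _).lt_of_ne' hb)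
    (pow_pos (norm_pos_iff.2 (A.det_tr_ne a b ⟨hz, h6⟩)) 2)

theorem exists_gaugeK (A : Atl n X) {ρ : A.ι → X → ℝ} (h1 : ∀ a, A.Sm (ρ a)) (h2 : ∀ a p, 0 ≤ ρ a p)
    (h3 : ∀ a, tsupport (ρ a) ⊆ (A.e a).source) (h4 : ∀ p, ∑ a, ρ a p = 1) :
    ∃ k : A.ι → X → ℂ, A.IsGauge k ∧
      (∀ a b, ∀ z ∈ A.ov a b,
        k a ((A.e a).symm z) = (fderiv ℂ (A.tr a b) z).det * k b ((A.e a).symm z)) ∧
      ∀ a, ∀ z ∈ (A.e a).target, ‖k a ((A.e a).symm z)‖ ^ 2 =
        ∑ b, ρ b ((A.e a).symm z) * ‖(fderiv ℂ (A.tr a b) z).det‖ ^ 2 := by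
  choose c hc using A.cover
  obtain ⟨k, hk⟩ : ∃ k : A.ι → X → ℂ, ∀ a p, k a p = (fderiv ℂ (A.tr a (c p)) (A.e a p)).det *
      (√(∑ b, BrKt A ρ (c p) b (A.e (c p) p)) : ℝ) := ⟨_, fun _ _ => rfl⟩
  have hA : ∀ a b, ∀ z ∈ A.ov a b,
      k a ((A.e a).symm z) = (fderiv ℂ (A.tr a b) z).det * k b ((A.e a).symm z) := by
    intro a b z hz
    rw [hk, hk, (A.e a).right_inv hz.1, BrK_cocycle A a b _ hz (hc _), mul_assoc]
    rfl
  have hB : ∀ a, ∀ z ∈ (A.e a).target,
      ‖k a ((A.e a).symm z)‖ ^ 2 = ∑ b, BrKt A ρ a b z := by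
    intro a z hz
    rw [hk, (A.e a).right_inv hz, BrK_tr h3 a (c ((A.e a).symm z)) ⟨hz, hc _⟩, norm_mul, mul_pow,
      Complex.norm_real, Real.norm_eq_abs, sq_abs,
      Real.sq_sqrt (Finset.sum_nonneg fun b _ => BrK_nonneg h2 _ b _)]
    rfl
  have hC : ∀ a, ∀ p ∈ (A.e a).source, k a p ≠ 0 := by
    intro a p hp h0
    have h5 := hB a _ ((A.e a).map_source hp)
    rw [(A.e a).left_inv hp, h0, norm_zero, zero_pow two_ne_zero] at h5
    exact (BrK_pos h2 h3 h4 a ((A.e a).map_source hp)).ne h5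
  refine ⟨k, ⟨hC, fun a b => ?_, fun a => ?_⟩, hA, hB⟩
  · refine AnalyticOnNhd.congr (A.isOpen_ov a b)
      (analyticOnNhd_det_fderiv (A.analyticOnNhd_tr a b)) fun z hz => ?_
    change _ = k a ((A.e a).symm z) / k b ((A.e a).symm z)
    rw [hA a b z hz, mul_div_cancel_right₀ _ (hC b _ hz.2)]
  · have h5 : ContDiffOn ℝ ∞ (fun z => ∑ b, BrKt A ρ a b z) (A.e a).target :=
      ContDiffOn.sum fun b _ => BrK_sm h1 h3 a b
    exact h5.congr fun z hz => hB a z hz

variable [MeasurableSpace X] [BorelSpace X]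

omit [T2Space X] [CompactSpace X] in
theorem BrK_meas (e : OpenPartialHomeomorph X (Cn n)) {S : Set X} (hS : MeasurableSet S) :
    MeasurableSet (e.symm ⁻¹' S ∩ e.target) := by
  have h1 : Measurable fun z : e.target => e.symm z :=
    (continuousOn_iff_continuous_domRestrict.1 e.continuousOn_symm).measurable
  have h2 := MeasurableSet.subtype_image e.open_target.measurableSet (h1 hS)
  have h3 : e.symm ⁻¹' S ∩ e.target =
      ((↑) : e.target → Cn n) '' ((fun z : e.target => e.symm z) ⁻¹' S) := by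
    ext z
    constructor
    · rintro ⟨h4, h5⟩
      exact ⟨⟨z, h5⟩, h4, rfl⟩
    · rintro ⟨⟨w, h5⟩, h4, rfl⟩
      exact ⟨h4, h5⟩
  rwa [h3]

omit [T2Space X] [CompactSpace X] in
theorem BrK_map (e : OpenPartialHomeomorph X (Cn n)) (f : Cn n → ENNReal) {S : Set X}
    (hS : MeasurableSet S) :
    Measure.map e.symm ((volume.restrict e.target).withDensity f) S =
      ∫⁻ z in e.symm ⁻¹' S ∩ e.target, f z := by
  have h1 : AEMeasurable e.symm ((volume.restrict e.target).withDensity f) :=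
    (e.continuousOn_symm.aemeasurable e.open_target.measurableSet).mono_ac
      (withDensity_absolutelyContinuous _ _)
  rw [Measure.map_apply_of_aemeasurable h1 hS, withDensity_apply',
    Measure.restrict_restrict' e.open_target.measurableSet]

omit [T2Space X] [CompactSpace X] in
/-- The change of variables for one pair of charts. -/
theorem BrK_change {A : Atl n X} {ρ : A.ι → X → ℝ} (h2 : ∀ a p, 0 ≤ ρ a p)
    (h3 : ∀ a, tsupport (ρ a) ⊆ (A.e a).source) (a b : A.ι) {S : Set X} (hS : MeasurableSet S) :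
    ∫⁻ z in (A.e b).symm ⁻¹' (S ∩ (A.e a).source) ∩ (A.e b).target,
        ENNReal.ofReal (ρ b ((A.e b).symm z)) =
      ∫⁻ z in (A.e a).symm ⁻¹' S ∩ (A.e a).target, ENNReal.ofReal (BrKt A ρ a b z) := by
  have hT : MeasurableSet ((A.e a).symm ⁻¹' (S ∩ (A.e b).source) ∩ (A.e a).target) :=
    BrK_meas _ (hS.inter (A.e b).open_source.measurableSet)
  have hsub : (A.e a).symm ⁻¹' (S ∩ (A.e b).source) ∩ (A.e a).target ⊆ A.ov a b :=
    fun z hz => ⟨hz.2, hz.1.2⟩
  have h4 : ∀ z ∈ A.ov a b, (A.e b).symm (A.tr a b z) = (A.e a).symm z :=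
    fun z hz => (A.e b).left_inv hz.2
  have him : (A.e b).symm ⁻¹' (S ∩ (A.e a).source) ∩ (A.e b).target =
      A.tr a b '' ((A.e a).symm ⁻¹' (S ∩ (A.e b).source) ∩ (A.e a).target) := by
    ext w
    constructor
    · rintro ⟨⟨h5, h6⟩, h7⟩
      have hw : w ∈ A.ov b a := ⟨h7, h6⟩
      have hz := A.mapsTo_tr b a hw
      refine ⟨A.tr b a w, ⟨⟨?_, hz.2⟩, hz.1⟩, A.tr_tr b a hw⟩
      have h8 : (A.e a).symm (A.tr b a w) = (A.e b).symm w := (A.e a).left_inv h6
      rwa [h8]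
    · rintro ⟨z, hz, rfl⟩
      have hw := A.mapsTo_tr a b (hsub hz)
      refine ⟨⟨?_, hw.2⟩, hw.1⟩
      rw [h4 z (hsub hz)]
      exact hz.1.1
  have hinj : InjOn (A.tr a b) ((A.e a).symm ⁻¹' (S ∩ (A.e b).source) ∩ (A.e a).target) := by
    intro z hz w hw h
    rw [← A.tr_tr a b (hsub hz), h, A.tr_tr a b (hsub hw)]
  rw [him, lintegral_image_eq_lintegral_abs_det_fderiv_mul volume hT
    (f' := fun z => (fderiv ℂ (A.tr a b) z).restrictScalars ℝ) (fun z hz =>
      ((A.analyticOnNhd_tr a b z (hsub hz)).differentiableAt.hasFDerivAt.restrictScalars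
        ℝ).hasFDerivWithinAt) hinj, ← lintegral_indicator hT,
    ← lintegral_indicator (BrK_meas _ hS)]
  refine lintegral_congr fun z => ?_
  by_cases hz : z ∈ (A.e a).symm ⁻¹' S ∩ (A.e a).target
  · rw [indicator_of_mem hz]
    by_cases hb : (A.e a).symm z ∈ (A.e b).source
    · have hz' : z ∈ (A.e a).symm ⁻¹' (S ∩ (A.e b).source) ∩ (A.e a).target := ⟨⟨hz.1, hb⟩, hz.2⟩
      rw [indicator_of_mem hz', h4 z (hsub hz'), det_restrictScalars_eq,
        abs_of_nonneg (sq_nonneg _), mul_comm, ← ENNReal.ofReal_mul (h2 _ _)]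
      rfl
    · rw [indicator_of_notMem fun h => hb h.1.2]
      unfold BrKt
      rw [BrK_zero h3 hb, zero_mul, ENNReal.ofReal_zero]
  · rw [indicator_of_notMem hz, indicator_of_notMem fun h => hz ⟨h.1.1, h.2⟩]

omit [T2Space X] [MeasurableSpace X] [BorelSpace X] in
theorem BrK_fin {A : Atl n X} {ρ : A.ι → X → ℝ} (h2 : ∀ a p, 0 ≤ ρ a p)
    (h3 : ∀ a, tsupport (ρ a) ⊆ (A.e a).source) (h4 : ∀ p, ∑ a, ρ a p = 1) (b : A.ι) :
    ∫⁻ z in (A.e b).target, ENNReal.ofReal (ρ b ((A.e b).symm z)) < ⊤ := by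
  have hK : IsCompact (A.e b '' tsupport (ρ b)) :=
    (isClosed_tsupport _).isCompact.image_of_continuousOn ((A.e b).continuousOn.mono (h3 b))
  refine lt_of_le_of_lt ?_ (hK.measure_lt_top (μ := volume))
  rw [← lintegral_indicator (A.e b).open_target.measurableSet,
    ← lintegral_indicator_one hK.measurableSet]
  refine lintegral_mono fun z => ?_
  by_cases hz : z ∈ (A.e b).target
  · rw [indicator_of_mem hz]
    by_cases hb : (A.e b).symm z ∈ tsupport (ρ b)
    · have h5 : z ∈ A.e b '' tsupport (ρ b) := ⟨_, hb, (A.e b).right_inv hz⟩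
      rw [indicator_of_mem h5, Pi.one_apply, ENNReal.ofReal_le_one, ← h4 ((A.e b).symm z)]
      exact Finset.single_le_sum (f := fun a => ρ a ((A.e b).symm z)) (fun a _ => h2 a _)
        (Finset.mem_univ b)
    · rw [image_eq_zero_of_notMem_tsupport hb, ENNReal.ofReal_zero]
      exact bot_le
  · rw [indicator_of_notMem hz]
    exact bot_le

theorem exists_model (A : Atl n X) : ∃ M : Model n X, M.toAtl = A := by
  obtain ⟨ρ, h1, h2, h3, h4⟩ := exists_rho A
  obtain ⟨k, hk1, hk2, hk3⟩ := exists_gaugeK A h1 h2 h3 h4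
  obtain ⟨μ, hμ⟩ : ∃ μ : Measure X, ∀ S, MeasurableSet S → μ S =
      ∑ b, ∫⁻ z in (A.e b).symm ⁻¹' S ∩ (A.e b).target, ENNReal.ofReal (ρ b ((A.e b).symm z)) := by
    refine ⟨∑ b, Measure.map (A.e b).symm ((volume.restrict (A.e b).target).withDensity
      fun z => ENNReal.ofReal (ρ b ((A.e b).symm z))), fun S hS => ?_⟩
    rw [Measure.finsetSum_apply]
    exact Finset.sum_congr rfl fun b _ => BrK_map _ _ hS
  have hfin : IsFiniteMeasure μ := by
    refine ⟨?_⟩
    rw [hμ _ MeasurableSet.univ]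
    refine ENNReal.sum_lt_top.2 fun b _ => ?_
    rw [preimage_univ, univ_inter]
    exact BrK_fin h2 h3 h4 b
  refine ⟨⟨A, ρ, h1, h2, h3, h4, k, hk1, hk2, μ, fun a => ?_⟩, rfl⟩
  ext S hS
  rw [Measure.restrict_apply hS, hμ _ (hS.inter (A.e a).open_source.measurableSet),
    BrK_map _ _ hS, Finset.sum_congr rfl fun b _ => BrK_change h2 h3 a b hS,
    ← lintegral_finsetSum']
  · refine setLIntegral_congr_fun (BrK_meas _ hS) fun z hz => ?_
    have h5 : ‖k a ((A.e a).symm z)‖ ^ 2 = ∑ b, BrKt A ρ a b z := hk3 a z hz.2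
    change ∑ b, ENNReal.ofReal (BrKt A ρ a b z) = ENNReal.ofReal (‖k a ((A.e a).symm z)‖ ^ 2)
    rw [h5, ENNReal.ofReal_sum_of_nonneg fun b _ => BrK_nonneg h2 a b z]
  · intro b _
    exact (((BrK_sm h1 h3 a b).continuousOn.mono inter_subset_right).aemeasurable
      (BrK_meas _ hS)).ennreal_ofReal

end Vale.Agent.P271
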