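import Vale.Agent.P271.Defs
import Vale.Agent.P278F.Osg

/-! Basic facts on gauges and sections. -/

open MeasureTheory Set Filter Topology
open scoped ContDiff ComplexConjugate

noncomputable section

namespace Vale.Agent.P271

variable {n : ℕ} {X : Type} [TopologicalSpace X]

namespace Atl
variable (A : Atl n X)

theorem isOpen_ov (a b : A.ι) : IsOpen (A.ov a b) :=
  (A.e a).continuousOn_symm.isOpen_inter_preimage (A.e a).open_target (A.e b).open_source

theorem analyticOnNhd_tr (a b : A.ι) : AnalyticOnNhd ℂ (A.tr a b) (A.ov a b) := A.hol a b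

theorem mapsTo_tr (a b : A.ι) : MapsTo (A.tr a b) (A.ov a b) (A.ov b a) := by
  intro z hz
  refine ⟨(A.e b).map_source hz.2, ?_⟩
  change (A.e b).symm (A.e b ((A.e a).symm z)) ∈ (A.e a).source
  rw [(A.e b).left_inv hz.2]
  exact (A.e a).map_target hz.1

theorem tr_tr (a b : A.ι) {z : Cn n} (hz : z ∈ A.ov a b) : A.tr b a (A.tr a b z) = z := by
  unfold tr
  rw [(A.e b).left_inv hz.2, (A.e a).right_inv hz.1]

theorem loc_tr {F : Type} (a b : A.ι) (f : X → F) {z : Cn n} (hz : z ∈ A.ov a b) :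
    A.loc b f (A.tr a b z) = A.loc a f z := by
  unfold loc tr
  rw [(A.e b).left_inv hz.2]

theorem loc_e {F : Type} (a : A.ι) (f : X → F) {p : X} (hp : p ∈ (A.e a).source) :
    A.loc a f (A.e a p) = f p := by
  unfold loc
  rw [(A.e a).left_inv hp]

theorem api_loc_ev {F : Type} (a b : A.ι) (f : X → F) {z : Cn n} (hz : z ∈ A.ov a b) :
    A.loc a f =ᶠ[𝓝 z] A.loc b f ∘ A.tr a b :=
  Filter.mem_of_superset ((A.isOpen_ov a b).mem_nhds hz) fun _ hw => (A.loc_tr a b f hw).symm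

theorem api_rep {F : Type} (a : A.ι) (f : X → F) {p : X} (hp : p ∈ (A.e a).source) :
    f =ᶠ[𝓝 p] A.loc a f ∘ A.e a :=
  Filter.mem_of_superset ((A.e a).open_source.mem_nhds hp) fun _ hq => (A.loc_e a f hq).symm

theorem api_contDiffAt_tr (a b : A.ι) {z : Cn n} (hz : z ∈ A.ov a b) :
    ContDiffAt ℝ ∞ (A.tr a b) z :=
  ((A.analyticOnNhd_tr a b z hz).contDiffAt (n := ∞)).restrict_scalars ℝ

/-- The Jacobian determinant of a transition map does not vanish. -/
theorem det_tr_ne (a b : A.ι) {z : Cn n} (hz : z ∈ A.ov a b) :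
    (fderiv ℂ (A.tr a b) z).det ≠ 0 := by
  have h1 := (A.analyticOnNhd_tr a b z hz).differentiableAt
  have h2 := (A.analyticOnNhd_tr b a _ (A.mapsTo_tr a b hz)).differentiableAt
  have h3 : A.tr b a ∘ A.tr a b =ᶠ[𝓝 z] id :=
    Filter.mem_of_superset ((A.isOpen_ov a b).mem_nhds hz) fun _ hw => A.tr_tr a b hw
  have h4 := fderiv_comp z h2 h1
  rw [h3.fderiv_eq, fderiv_id] at h4
  have h5 : (fderiv ℂ (A.tr b a) (A.tr a b z)).det * (fderiv ℂ (A.tr a b) z).det = 1 := by
    unfold ContinuousLinearMap.det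
    have h6 := congrArg (fun T : Cn n →L[ℂ] Cn n => LinearMap.det (T : Cn n →ₗ[ℂ] Cn n)) h4
    rw [← LinearMap.det_comp]
    exact h6.symm.trans LinearMap.det_id
  exact right_ne_zero_of_mul_eq_one h5

variable {A}

theorem Sm.continuous {F : Type} [NormedAddCommGroup F] [NormedSpace ℝ F] {f : X → F}
    (h : A.Sm f) : Continuous f := by
  refine continuous_iff_continuousAt.2 fun p => ?_
  obtain ⟨a, hp⟩ := A.cover p
  have h1 : ContinuousAt (A.loc a f) (A.e a p) :=
    ((h a).contDiffAt ((A.e a).open_target.mem_nhds ((A.e a).map_source hp))).continuousAt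
  exact (h1.comp ((A.e a).continuousAt hp)).congr (A.api_rep a f hp).symm

/-- Smoothness is a local property that can be checked in one chart at each point. -/
theorem sm_of_local {F : Type} [NormedAddCommGroup F] [NormedSpace ℝ F] {f : X → F}
    (h : ∀ p, ∃ a, p ∈ (A.e a).source ∧ ContDiffAt ℝ ∞ (A.loc a f) (A.e a p)) : A.Sm f := by
  intro a z hz
  obtain ⟨b, hb, h1⟩ := h ((A.e a).symm z)
  have hz' : z ∈ A.ov a b := ⟨hz, hb⟩
  exact ((ContDiffAt.comp (g := A.loc b f) z h1 (A.api_contDiffAt_tr a b hz')).congr_of_eventuallyEq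
    (A.api_loc_ev a b f hz')).contDiffWithinAt

variable {u v : A.ι → X → ℂ}

theorem isGauge_one : A.IsGauge 1 := by
  refine ⟨fun a p _ => one_ne_zero, fun a b => ?_, fun a => ?_⟩
  · exact analyticOnNhd_const (v := (1 : ℂ) / 1)
  · exact contDiffOn_const (c := ‖(1 : ℂ)‖ ^ 2)

theorem IsGauge.mul (hu : A.IsGauge u) (hv : A.IsGauge v) : A.IsGauge (u * v) := by
  refine ⟨fun a p hp => mul_ne_zero (hu.ne a p hp) (hv.ne a p hp), fun a b => ?_, fun a => ?_⟩
  · have e : (A.loc a fun p => (u * v) a p / (u * v) b p) = fun z =>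
        A.loc a (fun p => u a p / u b p) z * A.loc a (fun p => v a p / v b p) z := by
      funext z
      simp only [loc, Pi.mul_apply, mul_div_mul_comm]
    rw [e]
    exact (hu.hol a b).mul (hv.hol a b)
  · have h : ContDiffOn ℝ ∞ _ _ := (hu.sm a).mul (hv.sm a)
    refine h.congr fun z _ => ?_
    simp only [loc, Pi.mul_apply, norm_mul, mul_pow]

theorem IsGauge.pow (hu : A.IsGauge u) (m : ℕ) : A.IsGauge (u ^ m) := by
  induction m with
  | zero => rw [pow_zero]; exact isGauge_one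
  | succ m ih => rw [pow_succ]; exact ih.mul hu

theorem IsGauge.inv (hu : A.IsGauge u) : A.IsGauge u⁻¹ := by
  refine ⟨fun a p hp => inv_ne_zero (hu.ne a p hp), fun a b => ?_, fun a => ?_⟩
  · have e : (A.loc a fun p => u⁻¹ a p / u⁻¹ b p) = fun z =>
        (A.loc a (fun p => u a p / u b p) z)⁻¹ := by
      funext z
      simp only [loc, Pi.inv_apply, inv_div_inv, inv_div]
    rw [e]
    intro z hz
    exact (hu.hol a b z hz).inv
      (div_ne_zero (hu.ne a _ ((A.e a).map_target hz.1)) (hu.ne b _ hz.2))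
  · have h : ContDiffOn ℝ ∞ _ _ := (hu.sm a).inv fun z hz =>
      pow_ne_zero 2 (norm_ne_zero_iff.2 (hu.ne a _ ((A.e a).map_target hz)))
    refine h.congr fun z _ => ?_
    simp only [loc, Pi.inv_apply, norm_inv, inv_pow]

theorem H0_congr (h : ∀ a, ∀ p ∈ (A.e a).source, u a p = v a p) : A.H0 u = A.H0 v := by
  ext s
  refine forall_congr' fun a => ?_
  have e : EqOn (A.loc a fun p => u a p * s p) (A.loc a fun p => v a p * s p) (A.e a).target :=
    fun z hz => by simp only [loc, h a _ ((A.e a).map_target hz)]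
  exact ⟨fun h1 => AnalyticOnNhd.congr (A.e a).open_target h1 e,
    fun h1 => AnalyticOnNhd.congr (A.e a).open_target h1 e.symm⟩

theorem Sec_congr (h : ∀ a, ∀ p ∈ (A.e a).source, u a p = v a p) : A.Sec u = A.Sec v := by
  ext s
  refine forall_congr' fun a => ?_
  have e : EqOn (A.loc a fun p => u a p * s p) (A.loc a fun p => v a p * s p) (A.e a).target :=
    fun z hz => by simp only [loc, h a _ ((A.e a).map_target hz)]
  exact ⟨fun h1 => ContDiffOn.congr h1 e.symm, fun h1 => ContDiffOn.congr h1 e⟩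

theorem H0_le_Sec : A.H0 u ≤ A.Sec u := fun _ hs a z hz =>
  (((hs a z hz).contDiffAt (n := ∞)).restrict_scalars ℝ).contDiffWithinAt

theorem api_loc_mul (u v : A.ι → X → ℂ) (s t : X → ℂ) (a : A.ι) :
    (A.loc a fun p => (u * v) a p * (s * t) p) = fun z =>
      A.loc a (fun p => u a p * s p) z * A.loc a (fun p => v a p * t p) z := by
  funext z
  simp only [loc, Pi.mul_apply]
  ring

theorem mul_mem_H0 {s t : X → ℂ} (hs : s ∈ A.H0 u) (ht : t ∈ A.H0 v) : s * t ∈ A.H0 (u * v) := by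
  intro a
  unfold HolOn
  rw [api_loc_mul]
  exact (hs a).mul (ht a)

theorem mul_mem_Sec {s t : X → ℂ} (hs : s ∈ A.Sec u) (ht : t ∈ A.Sec v) :
    s * t ∈ A.Sec (u * v) := by
  intro a
  unfold SmOn
  rw [api_loc_mul]
  exact (hs a).mul (ht a)

theorem one_mem_H0 : (1 : X → ℂ) ∈ A.H0 1 := fun _ => analyticOnNhd_const (v := (1 : ℂ) * 1)

theorem pow_mem_H0 {s : X → ℂ} (hs : s ∈ A.H0 u) (m : ℕ) : s ^ m ∈ A.H0 (u ^ m) := by
  induction m with
  | zero => rw [pow_zero, pow_zero]; exact one_mem_H0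
  | succ m ih => rw [pow_succ, pow_succ]; exact mul_mem_H0 ih hs

theorem mul_mem_H0_pow {s t : X → ℂ} {j k : ℕ} (hs : s ∈ A.H0 (u ^ j)) (ht : t ∈ A.H0 (u ^ k)) :
    s * t ∈ A.H0 (u ^ (j + k)) := by
  rw [pow_add]
  exact mul_mem_H0 hs ht

theorem mul_le_H0_pow {W W' : Submodule ℂ (X → ℂ)} {j k : ℕ} (h : W ≤ A.H0 (u ^ j))
    (h' : W' ≤ A.H0 (u ^ k)) : W * W' ≤ A.H0 (u ^ (j + k)) :=
  Submodule.mul_le.2 fun _ hs _ ht => mul_mem_H0_pow (h hs) (h' ht)

theorem pow_le_H0_pow {W : Submodule ℂ (X → ℂ)} {j : ℕ} (h : W ≤ A.H0 (u ^ j)) (m : ℕ) :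
    W ^ m ≤ A.H0 (u ^ (m * j)) := by
  induction m with
  | zero =>
    rw [pow_zero, zero_mul, pow_zero, Submodule.one_le]
    exact one_mem_H0
  | succ m ih =>
    rw [pow_succ, Nat.succ_mul]
    exact mul_le_H0_pow ih h

theorem api_change (hu : A.IsGauge u) (s : X → ℂ) {a b : A.ι} {z : Cn n} (hz : z ∈ A.ov a b) :
    (A.loc a fun q => u a q * s q) =ᶠ[𝓝 z] fun w => A.loc a (fun p => u a p / u b p) w *
      ((A.loc b fun q => u b q * s q) ∘ A.tr a b) w := by
  filter_upwards [(A.isOpen_ov a b).mem_nhds hz] with w hw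
  rw [Function.comp_apply, A.loc_tr a b _ hw]
  have := hu.ne b _ hw.2
  simp only [loc]
  field_simp

/-- Holomorphy of a section can be checked in one chart at each point. -/
theorem mem_H0_of_local (hu : A.IsGauge u) {s : X → ℂ}
    (h : ∀ p, ∃ a, p ∈ (A.e a).source ∧
      AnalyticAt ℂ (A.loc a fun q => u a q * s q) (A.e a p)) : s ∈ A.H0 u := by
  intro a z hz
  obtain ⟨b, hb, h1⟩ := h ((A.e a).symm z)
  have hz' : z ∈ A.ov a b := ⟨hz, hb⟩
  exact ((hu.hol a b z hz').mul (AnalyticAt.comp (g := A.loc b fun q => u b q * s q) h1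
    (A.analyticOnNhd_tr a b z hz'))).congr (api_change hu s hz').symm

/-- Smoothness of a section can be checked in one chart at each point. -/
theorem mem_Sec_of_local (hu : A.IsGauge u) {s : X → ℂ}
    (h : ∀ p, ∃ a, p ∈ (A.e a).source ∧
      ContDiffAt ℝ ∞ (A.loc a fun q => u a q * s q) (A.e a p)) : s ∈ A.Sec u := by
  intro a z hz
  obtain ⟨b, hb, h1⟩ := h ((A.e a).symm z)
  have hz' : z ∈ A.ov a b := ⟨hz, hb⟩
  exact (((((hu.hol a b z hz').contDiffAt (n := ∞)).restrict_scalars ℝ).mul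
    (ContDiffAt.comp (g := A.loc b fun q => u b q * s q) z h1
      (A.api_contDiffAt_tr a b hz'))).congr_of_eventuallyEq
        (api_change hu s hz')).contDiffWithinAt

theorem sm_mul_conj (hu : A.IsGauge u) {s t : X → ℂ} (hs : s ∈ A.Sec u) (ht : t ∈ A.Sec u) :
    A.Sm fun p => s p * conj (t p) := by
  intro a
  have h1 : ContDiffOn ℝ ∞ (fun z => conj (A.loc a (fun p => u a p * t p) z)) (A.e a).target :=
    Complex.conjCLE.contDiff.comp_contDiffOn (ht a)
  have h2 : ContDiffOn ℝ ∞ (fun z => (((A.loc a (fun p => ‖u a p‖ ^ 2) z)⁻¹ : ℝ) : ℂ))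
      (A.e a).target :=
    Complex.ofRealCLM.contDiff.comp_contDiffOn ((hu.sm a).inv fun z hz =>
      pow_ne_zero 2 (norm_ne_zero_iff.2 (hu.ne a _ ((A.e a).map_target hz))))
  have h : ContDiffOn ℝ ∞ _ _ := ((hs a).mul h1).mul h2
  refine h.congr fun z hz => ?_
  have h3 := hu.ne a _ ((A.e a).map_target hz)
  have h4 : conj (u a ((A.e a).symm z)) ≠ 0 := by simpa using h3
  simp only [loc, map_mul]
  push_cast
  rw [← Complex.mul_conj']
  field_simp

theorem sm_normSq (hu : A.IsGauge u) {s : X → ℂ} (hs : s ∈ A.Sec u) :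
    A.Sm fun p => ‖s p‖ ^ 2 := by
  intro a
  have h : ContDiffOn ℝ ∞ _ _ := Complex.reCLM.contDiff.comp_contDiffOn (sm_mul_conj hu hs hs a)
  refine h.congr fun z _ => ?_
  simp only [loc, Function.comp_apply, Complex.mul_conj', Complex.reCLM_apply]
  rw [← Complex.ofReal_pow, Complex.ofReal_re]

theorem continuous_norm_of_mem (hu : A.IsGauge u) {s : X → ℂ} (hs : s ∈ A.Sec u) :
    Continuous fun p => ‖s p‖ := by
  have h := (sm_normSq hu hs).continuous.sqrt
  simpa using h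

theorem continuousOn_norm_gauge (hu : A.IsGauge u) (a : A.ι) :
    ContinuousOn (fun p => ‖u a p‖) (A.e a).source := by
  have h := ((hu.sm a).continuousOn.comp (A.e a).continuousOn (A.e a).mapsTo).sqrt
  refine h.congr fun p hp => ?_
  simp [A.loc_e a _ hp]

theorem isOpen_ne_zero (hu : A.IsGauge u) {s : X → ℂ} (hs : s ∈ A.Sec u) :
    IsOpen {p | s p ≠ 0} := by
  have h := isOpen_ne_fun (continuous_norm_of_mem hu hs) (continuous_const (y := (0 : ℝ)))
  simpa using h

theorem exists_bound [CompactSpace X] (hu : A.IsGauge u) {s : X → ℂ} (hs : s ∈ A.Sec u) :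
    ∃ C, 0 ≤ C ∧ ∀ p, ‖s p‖ ≤ C := by
  obtain ⟨C, hC⟩ := isCompact_univ.exists_bound_of_continuousOn
    (continuous_norm_of_mem hu hs).continuousOn
  exact ⟨max C 0, le_max_right _ _, fun p => le_max_of_le_left (by simpa using hC p trivial)⟩

/-- The ratio of two sections is holomorphic where the denominator does not vanish. -/
theorem analyticAt_div (hu : A.IsGauge u) {s t : X → ℂ} (hs : s ∈ A.H0 u) (ht : t ∈ A.H0 u)
    {a : A.ι} {z : Cn n} (hz : z ∈ (A.e a).target) (h : t ((A.e a).symm z) ≠ 0) :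
    AnalyticAt ℂ (A.loc a fun p => s p / t p) z := by
  refine ((hs a z hz).div (ht a z hz)
    (mul_ne_zero (hu.ne a _ ((A.e a).map_target hz)) h)).congr ?_
  filter_upwards [(A.e a).open_target.mem_nhds hz] with w hw
  exact mul_div_mul_left _ _ (hu.ne a _ ((A.e a).map_target hw))

theorem continuousAt_div (hu : A.IsGauge u) {s t : X → ℂ} (hs : s ∈ A.H0 u) (ht : t ∈ A.H0 u)
    {p : X} (h : t p ≠ 0) : ContinuousAt (fun q => s q / t q) p := by
  obtain ⟨a, hp⟩ := A.cover p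
  have h1 := (analyticAt_div hu hs ht ((A.e a).map_source hp)
    (by rwa [(A.e a).left_inv hp])).continuousAt
  exact (h1.comp ((A.e a).continuousAt hp)).congr (A.api_rep a _ hp).symm

/-- The identity theorem. -/
theorem eq_zero_of_eventually [PreconnectedSpace X] (hu : A.IsGauge u) {s : X → ℂ}
    (hs : s ∈ A.H0 u) {p : X} (h : ∀ᶠ q in 𝓝 p, s q = 0) : s = 0 := by
  have ho : IsOpen {p | ∀ᶠ q in 𝓝 p, s q = 0} := isOpen_setOfPred_eventually_nhds
  have hc : IsClosed {p | ∀ᶠ q in 𝓝 p, s q = 0} := by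
    refine isClosed_of_closure_subset fun x hx => ?_
    obtain ⟨a, hxa⟩ := A.cover x
    obtain ⟨r, hr, hB⟩ := Metric.isOpen_iff.1 (A.e a).open_target _ ((A.e a).map_source hxa)
    have hU : (A.e a).source ∩ A.e a ⁻¹' Metric.ball (A.e a x) r ∈ 𝓝 x :=
      inter_mem ((A.e a).open_source.mem_nhds hxa)
        ((A.e a).continuousAt hxa (Metric.ball_mem_nhds _ hr))
    obtain ⟨y, hy, hy0⟩ := mem_closure_iff_nhds.1 hx _ hU
    have h1 : (A.loc a fun q => u a q * s q) =ᶠ[𝓝 (A.e a y)] 0 := by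
      have h2 := (A.e a).continuousAt_symm ((A.e a).map_source hy.1)
      rw [ContinuousAt, (A.e a).left_inv hy.1] at h2
      filter_upwards [h2.eventually hy0] with w hw
      simp [loc, hw]
    have h3 := ((hs a).mono hB).eqOn_zero_of_preconnected_of_eventuallyEq_zero
      (convex_ball _ _).isPreconnected hy.2 h1
    filter_upwards [hU] with q hq
    have h4 := h3 hq.2
    rw [A.loc_e a _ hq.1] at h4
    exact (mul_eq_zero.1 h4).resolve_left (hu.ne a q hq.1)
  have h5 := IsClopen.eq_univ ⟨hc, ho⟩ ⟨p, h⟩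
  funext q
  have h6 : q ∈ {p | ∀ᶠ q in 𝓝 p, s q = 0} := h5 ▸ mem_univ q
  exact Filter.Eventually.self_of_nhds (p := fun q => s q = 0) h6

theorem eq_zero_or_eq_zero [PreconnectedSpace X] (hu : A.IsGauge u) (hv : A.IsGauge v)
    {s t : X → ℂ} (hs : s ∈ A.H0 u) (ht : t ∈ A.H0 v) (h : s * t = 0) : s = 0 ∨ t = 0 := by
  refine or_iff_not_imp_left.2 fun h1 => ?_
  obtain ⟨p, hp⟩ := Function.ne_iff.1 h1
  refine eq_zero_of_eventually hv ht (p := p) ?_
  filter_upwards [(isOpen_ne_zero hu (H0_le_Sec hs)).mem_nhds hp] with q hq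
  exact (mul_eq_zero.1 (congrFun h q)).resolve_left hq

theorem dense_ne_zero [PreconnectedSpace X] (hu : A.IsGauge u) {s : X → ℂ} (hs : s ∈ A.H0 u)
    (h : s ≠ 0) : Dense {p | s p ≠ 0} := by
  refine dense_iff_inter_open.2 fun U hU ⟨p, hp⟩ => ?_
  by_contra h1
  refine h (eq_zero_of_eventually hu hs (p := p) ?_)
  filter_upwards [hU.mem_nhds hp] with q hq
  by_contra h2
  exact h1 ⟨q, hq, h2⟩

/-- The affine coordinates `s i / s i0` of an immersion have injective differential. -/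
theorem Imm.exists_fderiv_ne (hu : A.IsGauge u) {ι : Type} {s : ι → X → ℂ} (hs : A.Imm u s)
    {a : A.ι} {z : Cn n} (hz : z ∈ (A.e a).target) {σ : X → ℂ} (hσ : σ ∈ A.H0 u)
    (h : σ ((A.e a).symm z) ≠ 0) {ξ : Cn n} (hξ : ξ ≠ 0) :
    ∃ i, fderiv ℂ (A.loc a fun p => s i p / σ p) z ξ ≠ 0 := by
  by_contra h1
  push Not at h1
  obtain ⟨i, j, hij⟩ := hs.imm a z hz ξ hξ
  have h2 : ∀ᶠ w in 𝓝 z, σ ((A.e a).symm w) ≠ 0 :=
    ((A.e a).continuousAt_symm hz).eventually
      ((isOpen_ne_zero hu (H0_le_Sec hσ)).mem_nhds h)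
  have h3 : ∀ i, (A.loc a fun p => u a p * s i p) =ᶠ[𝓝 z] fun w =>
      A.loc a (fun p => s i p / σ p) w * A.loc a (fun p => u a p * σ p) w := by
    intro i
    filter_upwards [h2] with w hw
    simp only [loc]
    field_simp
  have h4 : ∀ i, fderiv ℂ (A.loc a fun p => u a p * s i p) z ξ =
      A.loc a (fun p => s i p / σ p) z * fderiv ℂ (A.loc a fun p => u a p * σ p) z ξ := by
    intro i
    rw [(h3 i).fderiv_eq, fderiv_fun_mul (analyticAt_div hu (hs.mem i) hσ hz h).differentiableAt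
      (hσ a z hz).differentiableAt]
    simp [h1 i]
  refine hij ?_
  rw [h4, h4, (h3 i).eq_of_nhds, (h3 j).eq_of_nhds]
  ring

/-- The products of a base point free system with an immersive system are immersive. -/
theorem Imm.mul (hu : A.IsGauge u) (hv : A.IsGauge v) {ι κ : Type} {s : ι → X → ℂ}
    {t : κ → X → ℂ} (hs : A.Imm u s) (ht : ∀ k, t k ∈ A.H0 v) (hb : ∀ p, ∃ k, t k p ≠ 0) :
    A.Imm (v * u) fun q : κ × ι => t q.1 * s q.2 := by
  refine ⟨fun q => mul_mem_H0 (ht q.1) (hs.mem q.2), fun p => ?_, fun a z hz ξ hξ => ?_⟩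
  · obtain ⟨k, hk⟩ := hb p
    obtain ⟨i, hi⟩ := hs.bpf p
    exact ⟨(k, i), mul_ne_zero hk hi⟩
  · obtain ⟨k, hk⟩ := hb ((A.e a).symm z)
    obtain ⟨i, j, hij⟩ := hs.imm a z hz ξ hξ
    refine ⟨(k, i), (k, j), fun h1 => hij ?_⟩
    have h2 : A.loc a (fun p => v a p * t k p) z ≠ 0 :=
      mul_ne_zero (hv.ne a _ ((A.e a).map_target hz)) hk
    rw [api_loc_mul, api_loc_mul,
      fderiv_fun_mul (ht k a z hz).differentiableAt (hs.mem i a z hz).differentiableAt,
      fderiv_fun_mul (ht k a z hz).differentiableAt (hs.mem j a z hz).differentiableAt] at h1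
    simp only [add_apply, smul_apply, smul_eq_mul] at h1
    refine mul_left_cancel₀ (pow_ne_zero 2 h2) ?_
    linear_combination h1

theorem Imm.congr {ι : Type} {s : ι → X → ℂ} (hs : A.Imm u s)
    (h : ∀ a, ∀ p ∈ (A.e a).source, u a p = v a p) : A.Imm v s := by
  refine ⟨fun i => H0_congr h ▸ hs.mem i, hs.bpf, fun a z hz ξ hξ => ?_⟩
  have e : ∀ i, (A.loc a fun p => v a p * s i p) =ᶠ[𝓝 z] A.loc a fun p => u a p * s i p := by
    intro i
    filter_upwards [(A.e a).open_target.mem_nhds hz] with w hw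
    simp only [loc, h a _ ((A.e a).map_target hw)]
  obtain ⟨i, j, hij⟩ := hs.imm a z hz ξ hξ
  refine ⟨i, j, ?_⟩
  rwa [(e i).fderiv_eq, (e j).fderiv_eq, (e i).eq_of_nhds, (e j).eq_of_nhds]

end Atl

end Vale.Agent.P271
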