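import Vale.Agent.P271.BrK

/-! The polarisation given by an ample bundle, and the way back to the statement.

Hints. `exists_pol`: choose a chart `c p` at each point, let `S a p = ∑ k, ‖s k (i a) p‖ ^ 2 > 0`,
`u a p = L.g (i a) (i (c p)) p * (S (c p) p) ^ (1 / (2 k0))` (a real power, cast to `ℂ`), and
`s' k p = s k (i (c p)) p / √(S (c p) p)`. Then `u a p ^ k0 * s' k p = s k (i a) p`,
`‖u a p‖ ^ 2 = S a p ^ (1 / k0)` and `u a / u b = L.g (i a) (i b)`. For `imm`: `diff n f p v` is the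
`fderiv` of `f ∘ (chartAt p).symm` at `chartAt p p`; the chain rule with the invertible differential
of the transition map moves the condition to the chart at `q a`. `section_of_H0`: put
`s (q', i') p = (canonical n X).g q' (q (c p)) p * L.g i' (i (c p)) p ^ m *
(M.k (c p) p * u (c p) p ^ m * h p)`; near a point of the chart `a` one may replace `c p` by `a`
(cocycle relations, chain rule for the Jacobians), which gives holomorphy. -/

open MeasureTheory Set Filter Topology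
open scoped Manifold ContDiff

noncomputable section

namespace Vale.Agent.P271

open Stmt

variable {n : ℕ} {X : Type} [TopologicalSpace X] [ChartedSpace (Fin n → ℂ) X]
  [IsManifold 𝓘(ℂ, Fin n → ℂ) ω X] {L : Cocycle X}

theorem canonical_cocycle (a b c : X) {p : X} (ha : p ∈ (chartAt (Fin n → ℂ) a).source)
    (hb : p ∈ (chartAt (Fin n → ℂ) b).source) (hc : p ∈ (chartAt (Fin n → ℂ) c).source) :
    (canonical n X).g a b p * (canonical n X).g b c p = (canonical n X).g a c p := by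
  have h1 := (analyticAt_trans (n := n) a b ha hb).differentiableAt
  have h2 := (analyticAt_trans (n := n) b c hb hc).differentiableAt
  have e : (chartAt (Fin n → ℂ) b ∘ (chartAt (Fin n → ℂ) a).symm) (chartAt (Fin n → ℂ) a p) =
      chartAt (Fin n → ℂ) b p := by
    rw [Function.comp_apply, (chartAt (Fin n → ℂ) a).left_inv ha]
  rw [← e] at h2
  have h3 : (chartAt (Fin n → ℂ) c ∘ (chartAt (Fin n → ℂ) b).symm) ∘
      (chartAt (Fin n → ℂ) b ∘ (chartAt (Fin n → ℂ) a).symm) =ᶠ[𝓝 (chartAt (Fin n → ℂ) a p)]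
      chartAt (Fin n → ℂ) c ∘ (chartAt (Fin n → ℂ) a).symm := by
    have h4 := (chartAt (Fin n → ℂ) a).continuousAt_symm ((chartAt (Fin n → ℂ) a).map_source ha)
    rw [ContinuousAt, (chartAt (Fin n → ℂ) a).left_inv ha] at h4
    filter_upwards [h4.eventually ((chartAt (Fin n → ℂ) b).open_source.mem_nhds hb)] with w hw
    simp only [Function.comp_apply]
    rw [(chartAt (Fin n → ℂ) b).left_inv hw]
  have h4 := fderiv_comp _ h2 h1
  rw [h3.fderiv_eq, e] at h4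
  change (fderiv ℂ (chartAt (Fin n → ℂ) b ∘ (chartAt (Fin n → ℂ) a).symm)
      (chartAt (Fin n → ℂ) a p)).det *
    (fderiv ℂ (chartAt (Fin n → ℂ) c ∘ (chartAt (Fin n → ℂ) b).symm)
      (chartAt (Fin n → ℂ) b p)).det =
    (fderiv ℂ (chartAt (Fin n → ℂ) c ∘ (chartAt (Fin n → ℂ) a).symm)
      (chartAt (Fin n → ℂ) a p)).det
  rw [h4, mul_comm]
  unfold ContinuousLinearMap.det
  rw [← LinearMap.det_comp]
  rfl

theorem BrP_canonical_self (a : X) {p : X} (ha : p ∈ (chartAt (Fin n → ℂ) a).source) :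
    (canonical n X).g a a p = 1 := by
  have h3 : chartAt (Fin n → ℂ) a ∘ (chartAt (Fin n → ℂ) a).symm =ᶠ[𝓝 (chartAt (Fin n → ℂ) a p)]
      id := by
    filter_upwards [(chartAt (Fin n → ℂ) a).open_target.mem_nhds
      ((chartAt (Fin n → ℂ) a).map_source ha)] with w hw
    exact (chartAt (Fin n → ℂ) a).right_inv hw
  change (fderiv ℂ (chartAt (Fin n → ℂ) a ∘ (chartAt (Fin n → ℂ) a).symm)
      (chartAt (Fin n → ℂ) a p)).det = 1
  rw [h3.fderiv_eq, fderiv_id]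
  exact LinearMap.det_id

theorem canonical_ne (a b : X) {p : X} (ha : p ∈ (chartAt (Fin n → ℂ) a).source)
    (hb : p ∈ (chartAt (Fin n → ℂ) b).source) : (canonical n X).g a b p ≠ 0 := by
  have h := canonical_cocycle (n := n) a b a ha hb ha
  rw [BrP_canonical_self a ha] at h
  exact left_ne_zero_of_mul_eq_one h

/-- The differential in an arbitrary preferred chart. -/
theorem BrP_diff {f : X → ℂ} {U : Set X} (hU : IsOpen U) (hf : Hol n f U) (q : X) {p : X}
    (hp : p ∈ U) (hq : p ∈ (chartAt (Fin n → ℂ) q).source) (ξ : Fin n → ℂ) :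
    fderiv ℂ (f ∘ (chartAt (Fin n → ℂ) q).symm) (chartAt (Fin n → ℂ) q p) ξ =
      diff n f p (fderiv ℂ (chartAt (Fin n → ℂ) p ∘ (chartAt (Fin n → ℂ) q).symm)
        (chartAt (Fin n → ℂ) q p) ξ) := by
  have hpp := mem_chart_source (Fin n → ℂ) p
  have h1 := (analyticAt_trans (n := n) q p hq hpp).differentiableAt
  have h2 := (analyticAt_chart hU hf p hp hpp).differentiableAt
  have e : (chartAt (Fin n → ℂ) p ∘ (chartAt (Fin n → ℂ) q).symm) (chartAt (Fin n → ℂ) q p) =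
      chartAt (Fin n → ℂ) p p := by
    rw [Function.comp_apply, (chartAt (Fin n → ℂ) q).left_inv hq]
  rw [← e] at h2
  have h3 : (f ∘ (chartAt (Fin n → ℂ) p).symm) ∘
      (chartAt (Fin n → ℂ) p ∘ (chartAt (Fin n → ℂ) q).symm) =ᶠ[𝓝 (chartAt (Fin n → ℂ) q p)]
      f ∘ (chartAt (Fin n → ℂ) q).symm := by
    have h4 := (chartAt (Fin n → ℂ) q).continuousAt_symm ((chartAt (Fin n → ℂ) q).map_source hq)
    rw [ContinuousAt, (chartAt (Fin n → ℂ) q).left_inv hq] at h4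
    filter_upwards [h4.eventually ((chartAt (Fin n → ℂ) p).open_source.mem_nhds hpp)] with w hw
    simp only [Function.comp_apply]
    rw [(chartAt (Fin n → ℂ) p).left_inv hw]
  have h4 := fderiv_comp _ h2 h1
  rw [h3.fderiv_eq, e] at h4
  have h5 : MDifferentiableAt 𝓘(ℂ, Fin n → ℂ) 𝓘(ℂ, ℂ) f p :=
    (hf p hp).mdifferentiableAt (hU.mem_nhds hp)
  unfold diff
  rw [h4, h5.mfderiv]
  simp [writtenInExtChartAt]
  rfl

theorem BrP_exists_ne {T : (Fin n → ℂ) →L[ℂ] (Fin n → ℂ)} (hT : T.det ≠ 0) {ξ : Fin n → ℂ}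
    (hξ : ξ ≠ 0) : T ξ ≠ 0 := by
  intro h
  refine hT ?_
  unfold ContinuousLinearMap.det
  exact LinearMap.det_eq_zero_iff_ker_ne_bot.2
    ((Submodule.ne_bot_iff _).2 ⟨ξ, h, hξ⟩)

omit [IsManifold 𝓘(ℂ, Fin n → ℂ) ω X] in
theorem BrP_loc {A : Atl n X} {q : A.ι → X} {i : A.ι → L.ι} (h : Adapted A L q i) (a : A.ι)
    {F : Type} (f : X → F) : A.loc a f = f ∘ (chartAt (Fin n → ℂ) (q a)).symm := by
  funext z
  unfold Atl.loc
  rw [h.coe_symm a]
  rfl

theorem BrP_analyticAt {A : Atl n X} {q : A.ι → X} {i : A.ι → L.ι} (h : Adapted A L q i)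
    {f : X → ℂ} {U : Set X} (hU : IsOpen U) (hf : Hol n f U) (a : A.ι) {z : Cn n}
    (hz : z ∈ (A.e a).target) (hp : (A.e a).symm z ∈ U) : AnalyticAt ℂ (A.loc a f) z := by
  have h1 := analyticAt_chart hU hf (q a) hp (h.sub a ((A.e a).map_target hz)).1
  rw [← h.coe a, (A.e a).right_inv hz] at h1
  rw [BrP_loc h]
  exact h1

theorem BrP_rpow {k : ℕ} (hk : 0 < k) {S : ℝ} (hS : 0 ≤ S) :
    (S ^ (1 / (2 * k : ℝ))) ^ k = Real.sqrt S := by
  have hk' : (k : ℝ) ≠ 0 := by positivity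
  rw [← Real.rpow_natCast, ← Real.rpow_mul hS, Real.sqrt_eq_rpow]
  have e : 1 / (2 * k : ℝ) * k = 1 / 2 := by field_simp
  rw [e]

theorem BrP_rpow2 {k : ℕ} (hk : 0 < k) {S g : ℝ} (hS : 0 ≤ S) (hg : 0 ≤ g) :
    (g * S ^ (1 / (2 * k : ℝ))) ^ 2 = ((g ^ k) ^ 2 * S) ^ (1 / k : ℝ) := by
  have hk' : (k : ℝ) ≠ 0 := by positivity
  rw [Real.mul_rpow (by positivity) hS, mul_pow, ← Real.rpow_natCast (S ^ _),
    ← Real.rpow_mul hS, ← pow_mul, mul_comm k 2, pow_mul, one_div (k : ℝ),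
    Real.pow_rpow_inv_natCast (by positivity) hk.ne']
  have e : 1 / (2 * k : ℝ) * ((2 : ℕ) : ℝ) = (k : ℝ)⁻¹ := by
    push_cast
    field_simp
  rw [e]

theorem exists_pol {A : Atl n X} {q : A.ι → X} {i : A.ι → L.ι} (h : Adapted A L q i)
    (hL : IsLineBundle n L) (hA : Ample n L) :
    ∃ P : Pol A, ∀ a b, ∀ p ∈ (A.e a).source ∩ (A.e b).source,
      P.u a p = L.g (i a) (i b) p * P.u b p := by
  obtain ⟨k0, hk0, N, s, hs, hbpf, hsep, himm⟩ := hA
  choose c hc using A.cover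
  have hU : ∀ a, ∀ p ∈ (A.e a).source, p ∈ L.U (i a) := fun a p hp => (h.sub a hp).2
  have htr : ∀ k a b, ∀ p ∈ (A.e a).source, p ∈ (A.e b).source →
      s k (i a) p = L.g (i a) (i b) p ^ k0 * s k (i b) p :=
    fun k a b p ha hb => (hs k).2 (i a) (i b) p ⟨hU a p ha, hU b p hb⟩
  set S : A.ι → X → ℝ := fun a p => ∑ k, ‖s k (i a) p‖ ^ 2 with hS
  have hS0 : ∀ a, ∀ p ∈ (A.e a).source, 0 < S a p := by
    intro a p hp
    obtain ⟨k, hk⟩ := hbpf (i a) p (hU a p hp)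
    exact Finset.sum_pos' (fun _ _ => by positivity)
      ⟨k, Finset.mem_univ _, pow_pos (norm_pos_iff.2 hk) 2⟩
  have hStr : ∀ a b, ∀ p ∈ (A.e a).source, p ∈ (A.e b).source →
      S a p = (‖L.g (i a) (i b) p‖ ^ k0) ^ 2 * S b p := by
    intro a b p ha hb
    simp only [hS, Finset.mul_sum]
    refine Finset.sum_congr rfl fun k _ => ?_
    rw [htr k a b p ha hb, norm_mul, norm_pow, mul_pow]
  set u : A.ι → X → ℂ := fun a p =>
    L.g (i a) (i (c p)) p * ((S (c p) p ^ (1 / (2 * k0 : ℝ)) : ℝ) : ℂ) with hu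
  set t : Fin N → X → ℂ := fun k p => s k (i (c p)) p / (Real.sqrt (S (c p) p) : ℂ) with ht
  have hsq : ∀ p, ((Real.sqrt (S (c p) p) : ℝ) : ℂ) ≠ 0 := fun p =>
    Complex.ofReal_ne_zero.2 (Real.sqrt_pos.2 (hS0 _ p (hc p))).ne'
  have hrp : ∀ p, ((S (c p) p ^ (1 / (2 * k0 : ℝ)) : ℝ) : ℂ) ≠ 0 := fun p =>
    Complex.ofReal_ne_zero.2 (Real.rpow_pos_of_pos (hS0 _ p (hc p)) _).ne'
  have hg : ∀ a b, ∀ p ∈ (A.e a).source, p ∈ (A.e b).source → L.g (i a) (i b) p ≠ 0 :=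
    fun a b p ha hb => hL.ne _ _ p ⟨hU a p ha, hU b p hb⟩
  have hune : ∀ a, ∀ p ∈ (A.e a).source, u a p ≠ 0 := fun a p hp =>
    mul_ne_zero (hg a _ p hp (hc p)) (hrp p)
  have huu : ∀ a b, ∀ p ∈ (A.e a).source ∩ (A.e b).source,
      u a p = L.g (i a) (i b) p * u b p := by
    intro a b p hp
    simp only [hu]
    rw [← mul_assoc, hL.cocycle (i a) (i b) (i (c p)) p
      ⟨⟨hU a p hp.1, hU b p hp.2⟩, hU _ p (hc p)⟩]
  have hut : ∀ k a, ∀ p ∈ (A.e a).source, (u ^ k0) a p * t k p = s k (i a) p := by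
    intro k a p hp
    have e : ((S (c p) p ^ (1 / (2 * k0 : ℝ)) : ℝ) : ℂ) ^ k0 = (Real.sqrt (S (c p) p) : ℝ) := by
      rw [← Complex.ofReal_pow, BrP_rpow hk0 (hS0 _ p (hc p)).le]
    have h1 := hsq p
    simp only [Pi.pow_apply, hu, ht]
    rw [mul_pow, e, htr k a (c p) p hp (hc p)]
    field_simp
  have hev : ∀ k a, ∀ z ∈ (A.e a).target,
      (A.loc a fun p => (u ^ k0) a p * t k p) =ᶠ[𝓝 z] A.loc a (s k (i a)) := by
    intro k a z hz
    filter_upwards [(A.e a).open_target.mem_nhds hz] with w hw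
    exact hut k a _ ((A.e a).map_target hw)
  have han : ∀ k a, ∀ z ∈ (A.e a).target, AnalyticAt ℂ (A.loc a (s k (i a))) z :=
    fun k a z hz => BrP_analyticAt h (hL.isOpen (i a)) ((hs k).1 (i a)) a hz
      (hU a _ ((A.e a).map_target hz))
  have hgauge : A.IsGauge u := by
    refine ⟨hune, fun a b z hz => ?_, fun a => ?_⟩
    · have h1 := BrP_analyticAt h ((hL.isOpen (i a)).inter (hL.isOpen (i b)))
        (hL.hol (i a) (i b)) a hz.1 ⟨hU a _ ((A.e a).map_target hz.1), hU b _ hz.2⟩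
      refine h1.congr ?_
      filter_upwards [(A.isOpen_ov a b).mem_nhds hz] with w hw
      simp only [Atl.loc]
      rw [huu a b _ ⟨(A.e a).map_target hw.1, hw.2⟩, mul_div_cancel_right₀ _ (hune b _ hw.2)]
    · have h1 : ContDiffOn ℝ ∞ (fun z => ∑ k, ‖A.loc a (s k (i a)) z‖ ^ 2) (A.e a).target := by
        refine ContDiffOn.sum fun k _ => ?_
        have h2 : ContDiffOn ℝ ∞ (A.loc a (s k (i a))) (A.e a).target := fun z hz =>
          (((han k a z hz).contDiffAt (n := ∞)).restrict_scalars ℝ).contDiffWithinAt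
        exact h2.norm_sq ℝ
      have h2 := h1.rpow_const_of_ne (p := (1 / k0 : ℝ)) fun z hz =>
        (hS0 a _ ((A.e a).map_target hz)).ne'
      refine h2.congr fun z hz => ?_
      have hp := (A.e a).map_target hz
      change ‖u a ((A.e a).symm z)‖ ^ 2 = S a ((A.e a).symm z) ^ (1 / k0 : ℝ)
      rw [hStr a _ _ hp (hc _), ← BrP_rpow2 hk0 (hS0 _ _ (hc _)).le (norm_nonneg _)]
      simp only [hu]
      rw [norm_mul, Complex.norm_real, Real.norm_of_nonneg
        (Real.rpow_pos_of_pos (hS0 _ _ (hc _)) _).le]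
  refine ⟨⟨u, hgauge, k0, hk0, N, t, ⟨fun k a z hz => ?_, fun p => ?_, fun a z hz ξ hξ => ?_⟩,
    fun p => ?_, fun p p' hpp => ?_⟩, huu⟩
  · exact (han k a z hz).congr (hev k a z hz).symm
  · obtain ⟨k, hk⟩ := hbpf (i (c p)) p (hU _ p (hc p))
    exact ⟨k, div_ne_zero hk (hsq p)⟩
  · have hp := (A.e a).map_target hz
    have hq := (h.sub a hp).1
    have ez : chartAt (Fin n → ℂ) (q a) ((A.e a).symm z) = z := by
      rw [← h.coe a, (A.e a).right_inv hz]
    have hdet := canonical_ne (n := n) (q a) ((A.e a).symm z) hq (mem_chart_source _ _)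
    obtain ⟨k, l, hkl⟩ := himm (i a) _ (hU a _ hp) _ (BrP_exists_ne hdet hξ)
    refine ⟨k, l, ?_⟩
    have hd : ∀ k, fderiv ℂ (A.loc a fun p => (u ^ k0) a p * t k p) z ξ =
        diff n (s k (i a)) ((A.e a).symm z) (fderiv ℂ (chartAt (Fin n → ℂ) ((A.e a).symm z) ∘
          (chartAt (Fin n → ℂ) (q a)).symm) (chartAt (Fin n → ℂ) (q a) ((A.e a).symm z)) ξ) := by
      intro k
      rw [(hev k a z hz).fderiv_eq, BrP_loc h,
        ← BrP_diff (hL.isOpen (i a)) ((hs k).1 (i a)) (q a) (hU a _ hp) hq ξ, ez]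
    rw [hd, hd, (hev k a z hz).eq_of_nhds, (hev l a z hz).eq_of_nhds]
    exact hkl
  · have h1 := hS0 _ p (hc p)
    simp only [ht, norm_div, div_pow, Complex.norm_real, Real.norm_of_nonneg (Real.sqrt_nonneg _),
      Real.sq_sqrt h1.le]
    rw [← Finset.sum_div]
    exact div_self h1.ne'
  · obtain ⟨k, l, hkl⟩ := hsep (i (c p)) (i (c p')) p (hU _ p (hc p)) p' (hU _ p' (hc p')) hpp
    refine ⟨k, l, fun h1 => hkl ?_⟩
    have h2 := hsq p
    have h3 := hsq p'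
    simp only [ht] at h1
    field_simp at h1
    linear_combination h1

theorem BrP_analyticAt_canonical (q q' r : X) {p : X} (hq : p ∈ (chartAt (Fin n → ℂ) q).source)
    (hq' : p ∈ (chartAt (Fin n → ℂ) q').source) (hr : p ∈ (chartAt (Fin n → ℂ) r).source) :
    AnalyticAt ℂ ((canonical n X).g q q' ∘ (chartAt (Fin n → ℂ) r).symm)
      (chartAt (Fin n → ℂ) r p) := by
  have h1 := analyticAt_trans (n := n) r q hr hq
  have h2 : AnalyticOnNhd ℂ (chartAt (Fin n → ℂ) q' ∘ (chartAt (Fin n → ℂ) q).symm)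
      {chartAt (Fin n → ℂ) q p} := by
    intro z hz
    rw [mem_singleton_iff.1 hz]
    exact analyticAt_trans (n := n) q q' hq hq'
  have h3 := analyticOnNhd_det_fderiv h2 _ (mem_singleton _)
  have e : (chartAt (Fin n → ℂ) q ∘ (chartAt (Fin n → ℂ) r).symm) (chartAt (Fin n → ℂ) r p) =
      chartAt (Fin n → ℂ) q p := by
    rw [Function.comp_apply, (chartAt (Fin n → ℂ) r).left_inv hr]
  rw [← e] at h3
  exact h3.comp h1

theorem section_of_H0 [MeasurableSpace X] (M : Model n X) {q : M.ι → X} {i : M.ι → L.ι}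
    (h : Adapted M.toAtl L q i) (hL : IsLineBundle n L) {u : M.ι → X → ℂ} (hu : M.IsGauge u)
    (hg : ∀ a b, ∀ p ∈ (M.e a).source ∩ (M.e b).source, u a p = L.g (i a) (i b) p * u b p)
    (m : ℕ) {s : X → ℂ} (hs : s ∈ M.H0 (M.k * u ^ m)) {x : X} (hx : s x ≠ 0) :
    ∃ t, IsSection n (tensor (canonical n X) (power L m)) t ∧
      ∃ j, x ∈ (tensor (canonical n X) (power L m)).U j ∧ t j x ≠ 0 := by
  choose c hc using M.cover
  have hU : ∀ a, ∀ p ∈ (M.e a).source, p ∈ L.U (i a) := fun a p hp => (h.sub a hp).2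
  have hQ : ∀ a, ∀ p ∈ (M.e a).source, p ∈ (chartAt (Fin n → ℂ) (q a)).source :=
    fun a p hp => (h.sub a hp).1
  have hk : ∀ a b, ∀ p ∈ (M.e a).source, p ∈ (M.e b).source →
      M.k a p = (canonical n X).g (q a) (q b) p * M.k b p := by
    intro a b p ha hb
    have h1 := M.k_tr a b (M.e a p) ⟨(M.e a).map_source ha, by
      change (M.e a).symm (M.e a p) ∈ (M.e b).source
      rwa [(M.e a).left_inv ha]⟩
    rw [(M.e a).left_inv ha] at h1
    have e : M.toAtl.tr a b = chartAt (Fin n → ℂ) (q b) ∘ (chartAt (Fin n → ℂ) (q a)).symm := by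
      funext z
      unfold Atl.tr
      rw [h.coe_symm a, h.coe b]
      rfl
    rw [h1, e, h.coe a]
    rfl
  set t : X × L.ι → X → ℂ := fun j p => (canonical n X).g j.1 (q (c p)) p *
    L.g j.2 (i (c p)) p ^ m * (M.k (c p) p * u (c p) p ^ m * s p) with ht
  have hloc : ∀ (j : X × L.ι) a, ∀ p ∈ (chartAt (Fin n → ℂ) j.1).source ∩ L.U j.2,
      p ∈ (M.e a).source → t j p = (canonical n X).g j.1 (q a) p *
        L.g j.2 (i a) p ^ m * ((M.k * u ^ m) a p * s p) := by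
    intro j a p hp ha
    simp only [ht, Pi.mul_apply, Pi.pow_apply]
    rw [hk a (c p) p ha (hc p), hg a (c p) p ⟨ha, hc p⟩,
      ← canonical_cocycle (n := n) j.1 (q a) (q (c p)) hp.1 (hQ a p ha) (hQ _ p (hc p)),
      ← hL.cocycle j.2 (i a) (i (c p)) p ⟨⟨hp.2, hU a p ha⟩, hU _ p (hc p)⟩]
    ring
  refine ⟨t, ⟨fun j : X × L.ι => hol_of_chart fun p hp => ?_,
    fun (j j' : X × L.ι) p hp => ?_⟩,
    (q (c x), i (c x)), ⟨hQ _ x (hc x), hU _ x (hc x)⟩, ?_⟩
  · have hp' : p ∈ (chartAt (Fin n → ℂ) j.1).source ∩ L.U j.2 := hp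
    refine ⟨q (c p), hQ _ p (hc p), ?_⟩
    have h1 := BrP_analyticAt_canonical (n := n) j.1 (q (c p)) (q (c p)) hp'.1 (hQ _ p (hc p))
      (hQ _ p (hc p))
    have h2 := analyticAt_chart ((hL.isOpen j.2).inter (hL.isOpen (i (c p))))
      (hL.hol j.2 (i (c p))) (q (c p)) ⟨hp'.2, hU _ p (hc p)⟩ (hQ _ p (hc p))
    have h3 := hs (c p) _ ((M.e (c p)).map_source (hc p))
    rw [BrP_loc h, h.coe (c p)] at h3
    refine ((h1.mul (h2.pow m)).mul h3).congr ?_
    have h4 := (chartAt (Fin n → ℂ) (q (c p))).continuousAt_symm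
      ((chartAt (Fin n → ℂ) (q (c p))).map_source (hQ _ p (hc p)))
    rw [ContinuousAt, (chartAt (Fin n → ℂ) (q (c p))).left_inv (hQ _ p (hc p))] at h4
    filter_upwards [h4.eventually (((chartAt (Fin n → ℂ) j.1).open_source.inter
      (hL.isOpen j.2)).mem_nhds hp'), h4.eventually ((M.e (c p)).open_source.mem_nhds (hc p))]
      with w hw1 hw2
    exact (hloc j (c p) _ hw1 hw2).symm
  · have hp1 : p ∈ (chartAt (Fin n → ℂ) j.1).source ∩ L.U j.2 := hp.1
    have hp2 : p ∈ (chartAt (Fin n → ℂ) j'.1).source ∩ L.U j'.2 := hp.2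
    change t j p = (canonical n X).g j.1 j'.1 p * L.g j.2 j'.2 p ^ m * t j' p
    simp only [ht]
    rw [← canonical_cocycle (n := n) j.1 j'.1 (q (c p)) hp1.1 hp2.1 (hQ _ p (hc p)),
      ← hL.cocycle j.2 j'.2 (i (c p)) p ⟨⟨hp1.2, hp2.2⟩, hU _ p (hc p)⟩]
    ring
  · exact mul_ne_zero (mul_ne_zero (canonical_ne _ _ (hQ _ x (hc x)) (hQ _ x (hc x)))
      (pow_ne_zero _ (hL.ne _ _ x ⟨hU _ x (hc x), hU _ x (hc x)⟩)))
      (mul_ne_zero (mul_ne_zero (M.k_gauge.ne _ x (hc x)) (pow_ne_zero _ (hu.ne _ x (hc x)))) hx)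

end Vale.Agent.P271
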