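import Vale.Agent.P271.Stmt
import Vale.Agent.P271.Api

/-! From the statement to the model: an adapted finite atlas and a partition of unity.

Hints. `exists_atl`: for each `p` choose `i p` with `p ∈ L.U (i p)` and take the chart
`(chartAt p).restrOpen (L.U (i p))`; finitely many sources cover `X`. Transition maps are analytic:
`contDiffOn_extend_coord_change` or `contMDiffOn_chart`, `contMDiffOn_chart_symm`,
`contMDiffOn_iff_contDiffOn`, then `ContDiffOn` of order `ω` on an open set is analytic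
(`ContDiffAt.analyticAt`, `contDiffOn_omega_iff_analyticOn`). `Adapted.analyticAt`: compose with
`mdifferentiableOn_atlas_symm`, use `mdifferentiableOn_iff_differentiableOn` and
`P278F.analyticOnNhd_of_differentiableOn`. `exists_rho`: for each `p` choose a chart `a` and a
`ContDiffBump (e a p)` with `closedBall (e a p) rOut ⊆ target`; `β p = indicator source (bump ∘ e a)`
is smooth (`Atl.sm_of_local`: off the compact support it is locally zero); take a finite subcover of
the sets `β p > 0`, sum the `β p` with the same chart, and divide by the total sum. -/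

open Set Filter Topology
open scoped Manifold ContDiff

noncomputable section

namespace Vale.Agent.P271

open Stmt

variable {n : ℕ} {X : Type} [TopologicalSpace X]

/-- A smooth bump at `p` with compact support in a chart. -/
theorem brA_bump [T2Space X] (A : Atl n X) (p : X) :
    ∃ (a : A.ι) (β : X → ℝ) (K : Set X), A.Sm β ∧ (∀ q, 0 ≤ β q) ∧ 0 < β p ∧ IsClosed K ∧
      K ⊆ (A.e a).source ∧ ∀ q, q ∉ K → β q = 0 := by
  classical
  obtain ⟨a, ha⟩ := A.cover p
  obtain ⟨R, hR, hb⟩ := Metric.nhds_basis_closedBall.mem_iff.1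
    ((A.e a).open_target.mem_nhds ((A.e a).map_source ha))
  let b : ContDiffBump (A.e a p) := ⟨R / 2, R, half_pos hR, half_lt_self hR⟩
  have hK : IsClosed ((A.e a).symm '' Metric.closedBall (A.e a p) R) :=
    ((isCompact_closedBall _ _).image_of_continuousOn
      ((A.e a).continuousOn_symm.mono hb)).isClosed
  have hKs : (A.e a).symm '' Metric.closedBall (A.e a p) R ⊆ (A.e a).source := by
    rintro _ ⟨z, hz, rfl⟩
    exact (A.e a).map_target (hb hz)
  have h0 : ∀ q, q ∉ (A.e a).symm '' Metric.closedBall (A.e a p) R →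
      (A.e a).source.indicator (fun q => b (A.e a q)) q = 0 := by
    intro q hq
    by_cases hs : q ∈ (A.e a).source
    · rw [indicator_of_mem hs]
      refine b.zero_of_le_dist (le_of_lt (not_le.1 fun h => hq ⟨_, h, (A.e a).left_inv hs⟩))
    · exact indicator_of_notMem hs _
  refine ⟨a, (A.e a).source.indicator fun q => b (A.e a q), _, Atl.sm_of_local fun q => ?_,
    fun q => indicator_nonneg (fun _ _ => b.nonneg) q, ?_, hK, hKs, h0⟩
  · by_cases hs : q ∈ (A.e a).source
    · refine ⟨a, hs, (b.contDiff.contDiffAt).congr_of_eventuallyEq ?_⟩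
      filter_upwards [(A.e a).open_target.mem_nhds ((A.e a).map_source hs)] with z hz
      simp only [Atl.loc]
      rw [indicator_of_mem ((A.e a).map_target hz), (A.e a).right_inv hz]
    · obtain ⟨c, hc⟩ := A.cover q
      refine ⟨c, hc, (contDiffAt_const (c := (0 : ℝ))).congr_of_eventuallyEq ?_⟩
      have h1 : Tendsto (A.e c).symm (𝓝 (A.e c q)) (𝓝 q) := (A.e c).tendsto_symm hc
      filter_upwards [h1.eventually (hK.isOpen_compl.mem_nhds fun h => hs (hKs h))] with z hz
      exact h0 _ hz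
  · rw [indicator_of_mem ha]
    exact b.pos_of_mem_ball (Metric.mem_ball_self hR)

theorem brA_sm_sum (A : Atl n X) {β : X → X → ℝ} (h : ∀ p, A.Sm (β p)) (T : Finset X) :
    A.Sm fun q => ∑ p ∈ T, β p q := fun a =>
  ContDiffOn.sum (f := fun p => A.loc a (β p)) fun p _ => h p a

theorem exists_rho [T2Space X] [CompactSpace X] (A : Atl n X) :
    ∃ ρ : A.ι → X → ℝ, (∀ a, A.Sm (ρ a)) ∧ (∀ a p, 0 ≤ ρ a p) ∧
      (∀ a, tsupport (ρ a) ⊆ (A.e a).source) ∧ ∀ p, ∑ a, ρ a p = 1 := by
  classical
  choose c β K hsm h0 hpos hK hKs hβ using brA_bump A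
  obtain ⟨T, -, hT⟩ := isCompact_univ.elim_nhds_subcover (fun p => {q | 0 < β p q}) fun p _ =>
    (isOpen_lt continuous_const (hsm p).continuous).mem_nhds (hpos p)
  have hσ : ∀ q, 0 < ∑ p ∈ T, β p q := by
    intro q
    obtain ⟨p, hp, hq⟩ := mem_iUnion₂.1 (hT (mem_univ q))
    exact Finset.sum_pos' (fun p _ => h0 p q) ⟨p, hp, hq⟩
  refine ⟨fun a q => (∑ p ∈ T.filter fun p => c p = a, β p q) / ∑ p ∈ T, β p q, fun a b => ?_,
    fun a q => div_nonneg (Finset.sum_nonneg fun p _ => h0 p q) (hσ q).le, fun a => ?_, fun q => ?_⟩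
  · exact ContDiffOn.div (brA_sm_sum A hsm _ b) (brA_sm_sum A hsm T b) fun z _ => (hσ _).ne'
  · have hc : IsClosed (⋃ p ∈ T.filter fun p => c p = a, K p) :=
      isClosed_biUnion_finset fun p _ => hK p
    refine (closure_minimal (fun q hq => ?_) hc).trans ?_
    · by_contra hn
      refine hq ?_
      have : ∑ p ∈ T.filter fun p => c p = a, β p q = 0 :=
        Finset.sum_eq_zero fun p hp => hβ p q fun h => hn (mem_iUnion₂.2 ⟨p, hp, h⟩)
      simp only [this, zero_div]
    · refine iUnion₂_subset fun p hp => ?_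
      rw [← (Finset.mem_filter.1 hp).2]
      exact hKs p
  · rw [← Finset.sum_div, Finset.sum_fiberwise T c fun p => β p q, div_self (hσ q).ne']

variable [ChartedSpace (Fin n → ℂ) X]

/-- The charts of `A` are restrictions of preferred charts to sets where `L` is trivialised. -/
structure Adapted (A : Atl n X) (L : Cocycle X) (q : A.ι → X) (i : A.ι → L.ι) : Prop where
  sub : ∀ a, (A.e a).source ⊆ (chartAt (Fin n → ℂ) (q a)).source ∩ L.U (i a)
  coe : ∀ a, (A.e a : X → Cn n) = chartAt (Fin n → ℂ) (q a)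
  coe_symm : ∀ a, ((A.e a).symm : Cn n → X) = (chartAt (Fin n → ℂ) (q a)).symm

variable [IsManifold 𝓘(ℂ, Fin n → ℂ) ω X]

/-- The transition maps of the preferred charts are analytic. -/
theorem analyticAt_trans (q q' : X) {p : X} (hq : p ∈ (chartAt (Fin n → ℂ) q).source)
    (hq' : p ∈ (chartAt (Fin n → ℂ) q').source) :
    AnalyticAt ℂ (chartAt (Fin n → ℂ) q' ∘ (chartAt (Fin n → ℂ) q).symm)
      (chartAt (Fin n → ℂ) q p) := by
  have h1 : ContMDiffAt 𝓘(ℂ, Fin n → ℂ) 𝓘(ℂ, Fin n → ℂ) ω (chartAt (Fin n → ℂ) q).symm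
      (chartAt (Fin n → ℂ) q p) :=
    contMDiffOn_chart_symm.contMDiffAt
      ((chartAt (Fin n → ℂ) q).open_target.mem_nhds ((chartAt (Fin n → ℂ) q).map_source hq))
  have h2 : ContMDiffAt 𝓘(ℂ, Fin n → ℂ) 𝓘(ℂ, Fin n → ℂ) ω (chartAt (Fin n → ℂ) q') p :=
    contMDiffOn_chart.contMDiffAt ((chartAt (Fin n → ℂ) q').open_source.mem_nhds hq')
  exact (contMDiffAt_iff_contDiffAt.1
    (h2.comp_of_eq h1 ((chartAt (Fin n → ℂ) q).left_inv hq))).analyticAt

theorem exists_atl [CompactSpace X] {L : Cocycle X} (hL : IsLineBundle n L) :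
    ∃ (A : Atl n X) (q : A.ι → X) (i : A.ι → L.ι), Adapted A L q i := by
  choose i hi using hL.cover
  let e : X → OpenPartialHomeomorph X (Cn n) := fun p =>
    (chartAt (Fin n → ℂ) p).restrOpen (L.U (i p)) (hL.isOpen _)
  obtain ⟨T, -, hT⟩ := isCompact_univ.elim_nhds_subcover (fun p => (e p).source) fun p _ =>
    (e p).open_source.mem_nhds ⟨mem_chart_source _ p, hi p⟩
  refine ⟨⟨T, fun a => e a, fun p => ?_, fun a b z hz => ?_⟩, fun a => a.1, fun a => i a.1,
    fun a => subset_rfl, fun a => rfl, fun a => rfl⟩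
  · obtain ⟨q, hq, hp⟩ := mem_iUnion₂.1 (hT (mem_univ p))
    exact ⟨⟨q, hq⟩, hp⟩
  · have h := analyticAt_trans a.1 b.1 ((e a).map_target hz.1).1 hz.2.1
    have h1 : chartAt (Fin n → ℂ) a.1 ((e a).symm z) = z := (e a).right_inv hz.1
    rw [h1] at h
    exact h

/-- A holomorphic function is analytic in the charts. -/
theorem analyticAt_chart {f : X → ℂ} {U : Set X} (hU : IsOpen U) (hf : Hol n f U) (q : X) {p : X}
    (hp : p ∈ U) (hq : p ∈ (chartAt (Fin n → ℂ) q).source) :
    AnalyticAt ℂ (f ∘ (chartAt (Fin n → ℂ) q).symm) (chartAt (Fin n → ℂ) q p) := by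
  have hO := (chartAt (Fin n → ℂ) q).symm.isOpen_inter_preimage hU
  refine P278F.analyticOnNhd_of_differentiableOn hO ?_ _
    ⟨(chartAt (Fin n → ℂ) q).map_source hq, ?_⟩
  · rw [← mdifferentiableOn_iff_differentiableOn]
    exact MDifferentiableOn.comp hf
      ((mdifferentiableOn_atlas_symm (chart_mem_atlas _ q)).mono inter_subset_left)
      inter_subset_right
  · rw [mem_preimage, (chartAt (Fin n → ℂ) q).left_inv hq]
    exact hp

/-- A function that is analytic in some chart at each point is holomorphic. -/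
theorem hol_of_chart {f : X → ℂ} {U : Set X}
    (h : ∀ p ∈ U, ∃ q, p ∈ (chartAt (Fin n → ℂ) q).source ∧
      AnalyticAt ℂ (f ∘ (chartAt (Fin n → ℂ) q).symm) (chartAt (Fin n → ℂ) q p)) :
    Hol n f U := by
  intro p hp
  obtain ⟨q, hq, ha⟩ := h p hp
  have h1 := (mdifferentiableAt_iff_differentiableAt.2 ha.differentiableAt).comp p
    (mdifferentiableAt_atlas (I := 𝓘(ℂ, Fin n → ℂ)) (chart_mem_atlas _ q) hq)
  refine (h1.congr_of_eventuallyEq ?_).mdifferentiableWithinAt
  filter_upwards [(chartAt (Fin n → ℂ) q).open_source.mem_nhds hq] with x hx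
  simp only [Function.comp_apply, (chartAt (Fin n → ℂ) q).left_inv hx]

end Vale.Agent.P271
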