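import Vale.Agent.P271.Api

/-! The distance function `Pol.r` and integration in charts. -/

open MeasureTheory Set Filter Topology
open scoped ContDiff ComplexConjugate

noncomputable section

namespace Vale.Agent.P271

variable {n : ℕ} {X : Type} [TopologicalSpace X]

namespace Pol
variable {A : Atl n X} (P : Pol A) (x : X) (i0 : Fin P.N)

theorem norm_s_le (i : Fin P.N) (p : X) : ‖P.s i p‖ ≤ 1 :=
  (sq_le_one_iff₀ (norm_nonneg _)).1 ((Finset.single_le_sum (f := fun j => ‖P.s j p‖ ^ 2)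
    (fun _ _ => sq_nonneg _) (Finset.mem_univ i)).trans_eq (P.norm p))

theorem r_nonneg (p : X) : 0 ≤ P.r x i0 p := Real.sqrt_nonneg _

theorem r_sq (p : X) :
    P.r x i0 p ^ 2 = ∑ i, ‖P.s i p - P.s i x / P.s i0 x * P.s i0 p‖ ^ 2 :=
  Real.sq_sqrt (Finset.sum_nonneg fun _ _ => sq_nonneg _)

theorem continuous_r : Continuous (P.r x i0) :=
  Real.continuous_sqrt.comp (continuous_finsetSum _ fun i _ =>
    (Atl.continuous_norm_of_mem (P.gauge.pow P.k0) (Atl.H0_le_Sec (Submodule.sub_mem _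
      (P.imm.mem i) (Submodule.smul_mem _ (P.s i x / P.s i0 x) (P.imm.mem i0))))).pow 2)

theorem dist_term_le (p : X) (i : Fin P.N) :
    ‖P.s i p - P.s i x / P.s i0 x * P.s i0 p‖ ≤ P.r x i0 p :=
  Real.le_sqrt_of_sq_le (Finset.single_le_sum
    (f := fun j => ‖P.s j p - P.s j x / P.s i0 x * P.s i0 p‖ ^ 2)
    (fun _ _ => sq_nonneg _) (Finset.mem_univ i))

variable {x i0}

theorem r_eq_zero_iff (hx : P.s i0 x ≠ 0) (p : X) : P.r x i0 p = 0 ↔ p = x := by
  refine ⟨fun h => by_contra fun hp => ?_, fun h => ?_⟩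
  · have h1 : ∀ i, P.s i p = P.s i x / P.s i0 x * P.s i0 p := fun i =>
      sub_eq_zero.1 (norm_le_zero_iff.1 ((P.dist_term_le x i0 p i).trans_eq h))
    obtain ⟨i, j, h2⟩ := P.sep p x hp
    exact h2 (by rw [h1 i, h1 j]; ring)
  · simp [r, h, hx]

/-- The sets `r < δ` are a basis of neighbourhoods of `x`. -/
theorem exists_r_lt_subset [CompactSpace X] (hx : P.s i0 x ≠ 0) {U : Set X} (hU : U ∈ 𝓝 x) :
    ∃ δ > 0, ∀ p, P.r x i0 p < δ → p ∈ U := by
  obtain ⟨δ, h1, h2⟩ := (isOpen_interior (s := U)).isClosed_compl.isCompact.exists_forall_le'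
    (P.continuous_r x i0).continuousOn (a := 0) fun p hp => (P.r_nonneg x i0 p).lt_of_ne' fun h =>
      hp (((P.r_eq_zero_iff hx p).1 h).symm ▸ mem_interior_iff_mem_nhds.2 hU)
  exact ⟨δ, h1, fun p hp => interior_subset (by_contra fun h => (h2 p h).not_gt hp)⟩

theorem r_lt_mem_nhds (hx : P.s i0 x ≠ 0) {δ : ℝ} (hδ : 0 < δ) : {p | P.r x i0 p < δ} ∈ 𝓝 x :=
  (isOpen_lt (P.continuous_r x i0) continuous_const).mem_nhds
    (((P.r_eq_zero_iff hx x).2 rfl).trans_lt hδ)

/-- Near `x` the function `r` is comparable with the distance in a chart. -/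
theorem r_comparable (hx : P.s i0 x ≠ 0) {a : A.ι} (ha : x ∈ (A.e a).source) :
    ∃ C > 0, ∀ᶠ p in 𝓝 x, P.r x i0 p ≤ C * ‖A.e a p - A.e a x‖ ∧
      ‖A.e a p - A.e a x‖ ≤ C * P.r x i0 p := by
  have hg := P.gauge.pow P.k0
  have hz := (A.e a).map_source ha
  have hx' : P.s i0 ((A.e a).symm (A.e a x)) ≠ 0 := by rwa [(A.e a).left_inv ha]
  have h1 := hasFDerivAt_pi.2 fun i => (Atl.analyticAt_div hg (P.imm.mem i) (P.imm.mem i0) hz
    hx').differentiableAt.hasFDerivAt
  have hK := (LinearMap.isClosedEmbedding_of_injective (f := (ContinuousLinearMap.pi fun i =>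
    fderiv ℂ (A.loc a fun p => P.s i p / P.s i0 p) (A.e a x)).toLinearMap)
      (LinearMap.ker_eq_bot'.2 fun ξ h => by_contra fun hξ => by
        obtain ⟨i, hi⟩ := P.imm.exists_fderiv_ne hg hz (P.imm.mem i0) hx' hξ
        exact hi (congrFun h i))).isInducing
  obtain ⟨C1, hC1, h2⟩ := h1.isBigO_sub.exists_pos
  obtain ⟨C2, hC2, h3⟩ := (h1.isTheta_sub hK).2.exists_pos
  have h4 := ((A.e a).continuousAt ha).tendsto
  have h5 : 0 < ‖P.s i0 x‖ := norm_pos_iff.2 hx
  have h6 := (Atl.continuous_norm_of_mem hg (Atl.H0_le_Sec (P.imm.mem i0))).continuousAt.eventually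
    (lt_mem_nhds (half_lt_self h5))
  refine ⟨√P.N * C1 + C2 * (2 / ‖P.s i0 x‖), by positivity, ?_⟩
  filter_upwards [h4.eventually h2.bound, h4.eventually h3.bound, h6,
    (A.e a).open_source.mem_nhds ha] with p k1 k2 k3 k4
  have k5 : P.s i0 p ≠ 0 := norm_pos_iff.1 ((half_pos h5).trans k3)
  obtain ⟨G, hG⟩ : ∃ G, G = (fun i => A.loc a (fun p => P.s i p / P.s i0 p) (A.e a p)) -
    fun i => A.loc a (fun p => P.s i p / P.s i0 p) (A.e a x) := ⟨_, rfl⟩
  rw [← hG] at k1 k2
  have k6 : ∀ i, ‖P.s i p - P.s i x / P.s i0 x * P.s i0 p‖ = ‖G i‖ * ‖P.s i0 p‖ := fun i => by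
    rw [hG, Pi.sub_apply, A.loc_e a _ k4, A.loc_e a _ ha, ← norm_mul, sub_mul,
      div_mul_cancel₀ _ k5]
  have k7 : P.r x i0 p ≤ √P.N * ‖G‖ := by
    refine abs_le_of_sq_le_sq' ?_ (by positivity) |>.2
    rw [r_sq, mul_pow, Real.sq_sqrt (Nat.cast_nonneg _)]
    refine (Finset.sum_le_card_nsmul _ _ (‖G‖ ^ 2) fun i _ => ?_).trans_eq (by simp)
    rw [k6]
    exact pow_le_pow_left₀ (by positivity) ((mul_le_of_le_one_right (norm_nonneg _)
      (P.norm_s_le i0 p)).trans (norm_le_pi_norm G i)) 2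
  have k8 := P.r_nonneg x i0 p
  have k9 : ‖G‖ ≤ 2 / ‖P.s i0 x‖ * P.r x i0 p := by
    refine (pi_norm_le_iff_of_nonneg (by positivity)).2 fun i => ?_
    have := (k6 i).symm.trans_le (P.dist_term_le x i0 p i)
    rw [div_mul_eq_mul_div, le_div_iff₀ h5]
    nlinarith [norm_nonneg (G i)]
  constructor
  · refine (k7.trans (mul_le_mul_of_nonneg_left k1 (Real.sqrt_nonneg _))).trans ?_
    rw [← mul_assoc]
    exact mul_le_mul_of_nonneg_right (le_add_of_nonneg_right (by positivity)) (norm_nonneg _)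
  · refine (k2.trans (mul_le_mul_of_nonneg_left k9 hC2.le)).trans ?_
    rw [← mul_assoc]
    exact mul_le_mul_of_nonneg_right (le_add_of_nonneg_left (by positivity)) k8

end Pol

namespace Model
variable [MeasurableSpace X] [BorelSpace X] (M : Model n X)

theorem dist_ae (a : M.ι) : AEMeasurable (M.e a).symm (volume.restrict (M.e a).target) :=
  (M.e a).continuousOn_symm.aemeasurable (M.e a).open_target.measurableSet

omit [BorelSpace X] in
theorem dist_ae_k (a : M.ι) : AEMeasurable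
    (fun z => ENNReal.ofReal (‖M.k a ((M.e a).symm z)‖ ^ 2)) (volume.restrict (M.e a).target) :=
  ((M.k_gauge.sm a).continuousOn.aemeasurable (M.e a).open_target.measurableSet).ennreal_ofReal

theorem lintegral_chart (a : M.ι) {φ : X → ENNReal} (hφ : Measurable φ) :
    ∫⁻ p in (M.e a).source, φ p ∂M.μ =
      ∫⁻ z in (M.e a).target, φ ((M.e a).symm z) * ENNReal.ofReal (‖M.k a ((M.e a).symm z)‖ ^ 2) := by
  rw [M.μ_chart, lintegral_map' hφ.aemeasurable
    ((M.dist_ae a).mono_ac (withDensity_absolutelyContinuous _ _)),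
    lintegral_withDensity_eq_lintegral_mul₀ (g := fun z => φ ((M.e a).symm z)) (M.dist_ae_k a)
      (hφ.comp_aemeasurable (M.dist_ae a))]
  exact lintegral_congr fun z => mul_comm _ _

theorem setIntegral_chart (a : M.ι) {F : Type} [NormedAddCommGroup F] [NormedSpace ℝ F]
    {φ : X → F} (hφ : AEStronglyMeasurable φ (M.μ.restrict (M.e a).source)) :
    ∫ p in (M.e a).source, φ p ∂M.μ =
      ∫ z in (M.e a).target, ‖M.k a ((M.e a).symm z)‖ ^ 2 • φ ((M.e a).symm z) := by
  rw [M.μ_chart] at hφ ⊢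
  rw [integral_map ((M.dist_ae a).mono_ac (withDensity_absolutelyContinuous _ _)) hφ,
    integral_withDensity_eq_integral_toReal_smul₀ (M.dist_ae_k a)
      (Eventually.of_forall fun _ => ENNReal.ofReal_lt_top)]
  exact integral_congr_ae (Eventually.of_forall fun z => by
    simp only [ENNReal.toReal_ofReal (sq_nonneg _)])

theorem measure_chart (a : M.ι) {S : Set X} (hS : MeasurableSet S) (h : S ⊆ (M.e a).source) :
    M.μ S = ∫⁻ z in M.e a '' S, ENNReal.ofReal (‖M.k a ((M.e a).symm z)‖ ^ 2) := by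
  rw [← Measure.restrict_eq_self M.μ h, M.μ_chart, Measure.map_apply_of_aemeasurable
    ((M.dist_ae a).mono_ac (withDensity_absolutelyContinuous _ _)) hS, withDensity_apply',
    Measure.restrict_restrict₀ ((M.dist_ae a).nullMeasurableSet_preimage hS), inter_comm,
    (M.e a).image_eq_target_inter_inv_preimage h]

/-- On a compact part of a chart the measure is comparable with the Lebesgue measure. -/
theorem measure_comparable (a : M.ι) {K : Set X} (hK : IsCompact K) (h : K ⊆ (M.e a).source) :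
    ∃ C : ℝ, 0 < C ∧ ∀ S ⊆ K, MeasurableSet S →
      M.μ S ≤ ENNReal.ofReal C * volume (M.e a '' S) ∧
        volume (M.e a '' S) ≤ ENNReal.ofReal C * M.μ S := by
  have h1 := ((Atl.continuousOn_norm_gauge M.k_gauge a).mono h).pow 2
  obtain ⟨B, hB⟩ := hK.bddAbove_image h1
  obtain ⟨c, hc, h2⟩ := hK.exists_forall_le' h1 (a := 0) fun p hp =>
    pow_pos (norm_pos_iff.2 (M.k_gauge.ne a p (h hp))) 2
  refine ⟨|B| + c⁻¹, by positivity, fun S hS hm => ?_⟩
  have h3 : ∀ᵐ z ∂volume.restrict (M.e a '' S), (M.e a).symm z ∈ K := by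
    rw [(M.e a).image_eq_target_inter_inv_preimage (hS.trans h), inter_comm]
    filter_upwards [ae_restrict_mem₀ ((nullMeasurableSet_restrict
      (M.e a).open_target.measurableSet.nullMeasurableSet).1
      ((M.dist_ae a).nullMeasurableSet_preimage hm))] with z hz using hS hz.1
  rw [M.measure_chart a hm (hS.trans h), ← setLIntegral_const, ← setLIntegral_one,
    ← lintegral_const_mul' _ _ ENNReal.ofReal_ne_top]
  refine ⟨lintegral_mono_ae (h3.mono fun z hz => ENNReal.ofReal_le_ofReal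
    (((hB (mem_image_of_mem _ hz)).trans (le_abs_self B)).trans
      (le_add_of_nonneg_right (by positivity)))), lintegral_mono_ae (h3.mono fun z hz => ?_)⟩
  rw [← ENNReal.ofReal_mul (by positivity), ENNReal.one_le_ofReal, ← inv_mul_cancel₀ hc.ne']
  exact mul_le_mul (le_add_of_nonneg_left (abs_nonneg B)) (h2 _ hz) hc.le (by positivity)

/-- The lower bound for the measure of small balls. -/
theorem measure_r_lt [CompactSpace X] (P : Pol M.toAtl) {x : X} {i0 : Fin P.N}
    (hx : P.s i0 x ≠ 0) : ∃ c > (0 : ℝ), ∃ t0 > (0 : ℝ), ∀ t, 0 < t → t ≤ t0 →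
      ENNReal.ofReal (c * t ^ (2 * n)) ≤ M.μ {p | P.r x i0 p < t} := by
  obtain ⟨a, ha⟩ := M.cover x
  obtain ⟨C, hC, h1⟩ := P.r_comparable hx ha
  obtain ⟨ρ, hρ, h2⟩ := Metric.nhds_basis_closedBall.eventually_iff.1
    ((((M.e a).tendsto_symm ha).eventually h1).and
      ((M.e a).open_target.mem_nhds ((M.e a).map_source ha)))
  have h3 : Metric.closedBall (M.e a x) ρ ⊆ (M.e a).target := fun z hz => (h2 hz).2
  obtain ⟨B, hB, h4⟩ := M.measure_comparable a ((isCompact_closedBall _ ρ).image_of_continuousOn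
    ((M.e a).continuousOn_symm.mono h3)) (image_subset_iff.2 fun z hz => (M.e a).map_target (h3 hz))
  have h5 : 0 < volume.real (Metric.ball (0 : Cn n) 1) :=
    ENNReal.toReal_pos (Metric.measure_ball_pos _ _ one_pos).ne' measure_ball_lt_top.ne
  refine ⟨volume.real (Metric.ball (0 : Cn n) 1) / (B * C ^ (2 * n)), by positivity, C * ρ,
    by positivity, fun t ht ht0 => ?_⟩
  have h6 : Metric.ball (M.e a x) (t / C) ⊆ Metric.closedBall (M.e a x) ρ :=
    Metric.ball_subset_closedBall.trans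
      (Metric.closedBall_subset_closedBall ((div_le_iff₀' hC).2 ht0))
  have h7 := (h4 _ (image_mono h6) ((M.e a).isOpen_image_symm_of_subset_target
    Metric.isOpen_ball (h6.trans h3)).measurableSet).2
  have h9 : M.e a '' ((M.e a).symm '' Metric.ball (M.e a x) (t / C)) = _ :=
    (M.e a).image_symm_image_of_subset_target (h6.trans h3)
  rw [h9,
    Measure.addHaar_ball_of_pos _ _ (div_pos ht hC), finrank_real_of_complex,
    Module.finrank_fin_fun, ← ofReal_measureReal measure_ball_lt_top.ne,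
    ← ENNReal.ofReal_mul (by positivity)] at h7
  refine le_trans ((ENNReal.mul_le_mul_iff_right (ENNReal.ofReal_pos.2 hB).ne'
    ENNReal.ofReal_ne_top).1 (le_trans (le_of_eq ?_) h7)) (measure_mono ?_)
  · rw [← ENNReal.ofReal_mul hB.le, div_pow]
    congr 1
    field_simp
  · rintro _ ⟨z, hz, rfl⟩
    have h8 := (h2 (h6 hz)).1.1
    rw [(M.e a).right_inv (h3 (h6 hz))] at h8
    exact h8.trans_lt ((lt_div_iff₀' hC).1 (mem_ball_iff_norm.1 hz))

end Model

end Vale.Agent.P271
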