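import Mathlib

/-!
Holomorphic line bundles on a complex manifold, given by transition functions.
-/

open scoped Manifold

noncomputable section

namespace Vale.Agent.P271.Stmt

/-- Transition data of a line bundle: sets `U i` and functions `g i j` on the overlaps. -/
structure Cocycle (X : Type) where
  ι : Type
  U : ι → Set X
  g : ι → ι → X → ℂ

/-- The tensor product of two line bundles: intersect the sets, multiply the functions. -/
def tensor {X : Type} (L M : Cocycle X) : Cocycle X where
  ι := L.ι × M.ι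
  U i := L.U i.1 ∩ M.U i.2
  g i j p := L.g i.1 j.1 p * M.g i.2 j.2 p

/-- The `m`-th tensor power of a line bundle. -/
def power {X : Type} (L : Cocycle X) (m : ℕ) : Cocycle X where
  ι := L.ι
  U := L.U
  g i j p := L.g i j p ^ m

variable (n : ℕ) {X : Type} [TopologicalSpace X] [ChartedSpace (Fin n → ℂ) X]

/-- `f` is holomorphic (complex differentiable) on `U`. -/
def Hol (f : X → ℂ) (U : Set X) : Prop :=
  MDifferentiableOn 𝓘(ℂ, Fin n → ℂ) 𝓘(ℂ, ℂ) f U

/-- The data define a holomorphic line bundle: an open cover and a cocycle of nowhere vanishing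
holomorphic functions. -/
structure IsLineBundle (L : Cocycle X) : Prop where
  isOpen : ∀ i, IsOpen (L.U i)
  cover : ∀ p, ∃ i, p ∈ L.U i
  hol : ∀ i j, Hol n (L.g i j) (L.U i ∩ L.U j)
  ne : ∀ i j, ∀ p ∈ L.U i ∩ L.U j, L.g i j p ≠ 0
  cocycle : ∀ i j k, ∀ p ∈ L.U i ∩ L.U j ∩ L.U k, L.g i j p * L.g j k p = L.g i k p

variable (X) in
/-- The canonical bundle: a holomorphic `n`-form is `h a • dz` in the chart `z` at `a`, and the
transition function from the chart `w` at `b` is the Jacobian determinant `det (∂w/∂z)`. -/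
def canonical : Cocycle X where
  ι := X
  U a := (chartAt (Fin n → ℂ) a).source
  g a b p := (fderiv ℂ (chartAt (Fin n → ℂ) b ∘ (chartAt (Fin n → ℂ) a).symm)
    (chartAt (Fin n → ℂ) a p)).det

/-- A global holomorphic section, given by its local expressions `s i` on `U i`. -/
def IsSection (L : Cocycle X) (s : L.ι → X → ℂ) : Prop :=
  (∀ i, Hol n (s i) (L.U i)) ∧ ∀ i j, ∀ p ∈ L.U i ∩ L.U j, s i p = L.g i j p * s j p

/-- The global sections have no common zero. -/
def GloballyGenerated (L : Cocycle X) : Prop :=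
  ∀ p, ∃ s, IsSection n L s ∧ ∃ i, p ∈ L.U i ∧ s i p ≠ 0

/-- The differential of `f` at `p` applied to the tangent vector `v`. -/
def diff (f : X → ℂ) (p : X) (v : Fin n → ℂ) : ℂ := mfderiv 𝓘(ℂ, Fin n → ℂ) 𝓘(ℂ, ℂ) f p v

/-- Finitely many sections have no common zero, separate points and separate tangent vectors:
the map `p ↦ [s 0 p : ⋯ : s (N-1) p]` to projective space is an injective immersion. -/
def VeryAmple (L : Cocycle X) : Prop :=
  ∃ (N : ℕ) (s : Fin N → L.ι → X → ℂ), (∀ k, IsSection n L (s k)) ∧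
    (∀ i, ∀ p ∈ L.U i, ∃ k, s k i p ≠ 0) ∧
    (∀ i j, ∀ p ∈ L.U i, ∀ q ∈ L.U j, p ≠ q → ∃ k l, s k i p * s l j q ≠ s l i p * s k j q) ∧
    ∀ i, ∀ p ∈ L.U i, ∀ v, v ≠ 0 →
      ∃ k l, s k i p * diff n (s l i) p v ≠ s l i p * diff n (s k i) p v

/-- Some positive power is very ample. -/
def Ample (L : Cocycle X) : Prop := ∃ k, 0 < k ∧ VeryAmple n (power L k)

end Vale.Agent.P271.Stmt
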